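import Vale.Agent.P148.R2.H532.Stop
import Vale.Agent.P148.R2.H871.N0a

/-!
# P148, row DM3: collapsing connected sets, the explored part of a strand, class relations after an
exploration
-/

namespace Vale.Agent.P148.R2.H532

open Function Vale.Agent.P148.R2.H258 Vale.Agent.P148.R2.H258.Tri Vale.Agent.P148.R2.H838
  Vale.Agent.P148.R2.H871

variable {V D : Type*}

/-! ### collapsing -/

section col

variable {ι : Type*}

open Classical in
/-- Collapse every set `S i` to the vertex `r i`. -/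
noncomputable def col (S : ι → Set V) (r : ι → V) (v : V) : V :=
  if h : ∃ i, v ∈ S i then r h.choose else v

/-- Disjoint sets, each of them walk connected (to its root `r i`) inside itself. -/
structure Coll (T : Tri V D) (S : ι → Set V) (r : ι → V) : Prop where
  disj : ∀ i j v, v ∈ S i → v ∈ S j → i = j
  root : ∀ i, r i ∈ S i
  conn : ∀ i, ∀ x ∈ S i, ∃ l, T.Walk x (r i) l ∧ ∀ g ∈ l, T.src g ∈ S i ∧ T.tgt g ∈ S i

variable {T : Tri V D} {S : ι → Set V} {r : ι → V}

theorem Coll.col_mem (h : Coll T S r) {i : ι} {v : V} (hv : v ∈ S i) : col S r v = r i := by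
  have hex : ∃ i, v ∈ S i := ⟨i, hv⟩
  unfold col
  rw [dif_pos hex, h.disj _ _ v hex.choose_spec hv]

theorem col_not_mem {v : V} (hv : ∀ i, v ∉ S i) : col S r v = v := by
  unfold col
  rw [dif_neg (not_exists.2 hv)]

theorem Coll.col_root (h : Coll T S r) (i : ι) : col S r (r i) = r i := h.col_mem (h.root i)

theorem Coll.col_idem (h : Coll T S r) (v : V) : col S r (col S r v) = col S r v := by
  by_cases hv : ∃ i, v ∈ S i
  · obtain ⟨i, hi⟩ := hv
    rw [h.col_mem hi, h.col_root]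
  · rw [col_not_mem (not_exists.1 hv), col_not_mem (not_exists.1 hv)]

theorem Coll.col_mem_iff (h : Coll T S r) {i : ι} {v : V} : col S r v ∈ S i ↔ v ∈ S i := by
  constructor
  · intro hv
    by_cases hv' : ∃ j, v ∈ S j
    · obtain ⟨j, hj⟩ := hv'
      rw [h.col_mem hj] at hv
      rw [← h.disj _ _ _ (h.root j) hv]
      exact hj
    · rwa [col_not_mem (not_exists.1 hv')] at hv
  · intro hv
    rw [h.col_mem hv]
    exact h.root i

/-- Two vertices with the same image are equal or in a common set. -/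
theorem Coll.eq_or (h : Coll T S r) {u v : V} (huv : col S r u = col S r v) :
    u = v ∨ ∃ i, u ∈ S i ∧ v ∈ S i := by
  by_cases hu : ∃ i, u ∈ S i
  · obtain ⟨i, hi⟩ := hu
    right
    refine ⟨i, hi, ?_⟩
    rw [← h.col_mem_iff, ← huv, h.col_mem_iff]
    exact hi
  · rw [col_not_mem (not_exists.1 hu)] at huv
    by_cases hv : ∃ i, v ∈ S i
    · obtain ⟨i, hi⟩ := hv
      exact absurd ⟨i, by rw [huv]; exact h.col_mem_iff.2 hi⟩ hu
    · rw [col_not_mem (not_exists.1 hv)] at huv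
      exact Or.inl huv

theorem Coll.fib (h : Coll T S r) : FibConn T (col S r) := by
  intro d e hde
  rcases h.eq_or hde with h1 | ⟨i, h1, h2⟩
  · exact ⟨[], by rw [h1]; exact Walk.nil _, by simp⟩
  · obtain ⟨l, a1, a2⟩ := h.conn i _ h1
    obtain ⟨m, b1, b2⟩ := h.conn i _ h2
    refine ⟨l ++ (m.map T.rev).reverse, a1.append b1.reverse, ?_⟩
    intro g hg
    rw [h.col_mem h1]
    rcases List.mem_append.1 hg with hg | hg
    · exact ⟨h.col_mem (a2 g hg).1, h.col_mem (a2 g hg).2⟩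
    · rw [List.mem_reverse, List.mem_map] at hg
      obtain ⟨g', hg', rfl⟩ := hg
      rw [T.src_rev, T.tgt_rev]
      exact ⟨h.col_mem (b2 g' hg').2, h.col_mem (b2 g' hg').1⟩

/-- Colourings which are constant on every set are pulled back by the collapse. -/
theorem Coll.comp_eq (h : Coll T S r) {σ : V → Bool} (hσ : ∀ i, ∀ v ∈ S i, σ v = σ (r i)) :
    σ ∘ col S r = σ := by
  funext v
  by_cases hv : ∃ i, v ∈ S i
  · obtain ⟨i, hi⟩ := hv
    rw [comp_apply, h.col_mem hi, hσ i v hi]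
  · rw [comp_apply, col_not_mem (not_exists.1 hv)]

end col

/-! ### the explored part of a strand -/

/-- Sources of the strand of `d` up to time `t`. -/
def HB (T : Tri V D) (σ : V → Bool) (d : D) (t : ℕ) : Set V :=
  {v | ∃ i ≤ t, T.src ((T.st σ)^[i] d) = v}

/-- Targets of the strand of `d` up to time `t`. -/
def HW (T : Tri V D) (σ : V → Bool) (d : D) (t : ℕ) : Set V :=
  {v | ∃ i ≤ t, T.tgt ((T.st σ)^[i] d) = v}

variable {T : Tri V D} {σ : V → Bool} {d : D} {t : ℕ}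

theorem old_eq : Old T σ d t = HB T σ d t ∪ HW T σ d t := by
  ext v
  constructor
  · rintro ⟨i, hi, h | h⟩
    · exact Or.inl ⟨i, hi, h⟩
    · exact Or.inr ⟨i, hi, h⟩
  · rintro (⟨i, hi, h⟩ | ⟨i, hi, h⟩)
    · exact ⟨i, hi, Or.inl h⟩
    · exact ⟨i, hi, Or.inr h⟩

theorem col_HB {v : V} (hv : v ∈ HB T σ d t) : σ v = σ (T.src d) := by
  obtain ⟨i, -, rfl⟩ := hv
  exact T.col_src_iter σ d i

theorem col_HW {v : V} (hv : v ∈ HW T σ d t) : σ v = σ (T.tgt d) := by
  obtain ⟨i, -, rfl⟩ := hv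
  exact T.col_tgt_iter σ d i

theorem HB_disj_HW (hb : T.Bi σ d) {v : V} {t s : ℕ} (h1 : v ∈ HB T σ d t) (h2 : v ∈ HW T σ d s) :
    False := hb (by rw [← col_HB h1, col_HW h2])

theorem HB_conn (hb : T.Bi σ d) {x : V} (hx : x ∈ HB T σ d t) :
    ∃ l, T.Walk x (T.src d) l ∧ ∀ g ∈ l, T.src g ∈ HB T σ d t ∧ T.tgt g ∈ HB T σ d t := by
  obtain ⟨i, hi, rfl⟩ := hx
  refine ⟨_, (T.lw_walk hb i).reverse, ?_⟩
  intro g hg
  rw [List.mem_reverse, List.mem_map] at hg
  obtain ⟨g', hg', rfl⟩ := hg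
  obtain ⟨k, hk, h1, h2⟩ := T.lw_mem hg'
  rw [T.src_rev, T.tgt_rev]
  exact ⟨⟨k + 1, by omega, h2.symm⟩, ⟨k, by omega, h1.symm⟩⟩

theorem HW_conn (hb : T.Bi σ d) {x : V} (hx : x ∈ HW T σ d t) :
    ∃ l, T.Walk x (T.tgt d) l ∧ ∀ g ∈ l, T.src g ∈ HW T σ d t ∧ T.tgt g ∈ HW T σ d t := by
  obtain ⟨i, hi, rfl⟩ := hx
  refine ⟨_, (T.rw_walk hb i).reverse, ?_⟩
  intro g hg
  rw [List.mem_reverse, List.mem_map] at hg
  obtain ⟨g', hg', rfl⟩ := hg
  obtain ⟨k, hk, h1, h2⟩ := T.rw_mem hb hg'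
  rw [T.src_rev, T.tgt_rev]
  exact ⟨⟨k + 1, by omega, h2.symm⟩, ⟨k, by omega, h1.symm⟩⟩

/-- The two explored sets. -/
def HS2 (T : Tri V D) (σ : V → Bool) (d : D) (t : ℕ) : Bool → Set V
  | true => HB T σ d t
  | false => HW T σ d t

/-- Their roots. -/
def rt2 (T : Tri V D) (d : D) : Bool → V
  | true => T.src d
  | false => T.tgt d

theorem coll_HS2 (hb : T.Bi σ d) (t : ℕ) : Coll T (HS2 T σ d t) (rt2 T d) where
  disj := by
    rintro (_ | _) (_ | _) v h1 h2
    · rfl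
    · exact (HB_disj_HW hb h2 h1).elim
    · exact (HB_disj_HW hb h1 h2).elim
    · rfl
  root := by
    rintro (_ | _)
    · exact ⟨0, by omega, rfl⟩
    · exact ⟨0, by omega, rfl⟩
  conn := by
    rintro (_ | _) x hx
    · exact HW_conn hb hx
    · exact HB_conn hb hx

/-- The domain after `t` steps of the exploration of the strand of `d`. -/
noncomputable def TE (T : Tri V D) (σ : V → Bool) (d : D) (hb : T.Bi σ d) (t : ℕ) : Tri V D :=
  tmap T (col (HS2 T σ d t) (rt2 T d)) (coll_HS2 hb t).fib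

theorem TE_planar (hP : T.Planar) (hb : T.Bi σ d) (t : ℕ) : (TE T σ d hb t).Planar :=
  planar_tmap hP

/-- Colourings which agree with `σ` on the explored set. -/
theorem comp_col_eq (hb : T.Bi σ d) {σ' : V → Bool} (h : ∀ v ∈ Old T σ d t, σ' v = σ v) :
    σ' ∘ col (HS2 T σ d t) (rt2 T d) = σ' := by
  apply (coll_HS2 hb t).comp_eq
  rintro (_ | _) v hv
  · have h1 := h v (by rw [old_eq]; exact Or.inr hv)
    have h2 := h (T.tgt d) (by rw [old_eq]; exact Or.inr ⟨0, by omega, rfl⟩)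
    rw [h1]
    change _ = σ' (T.tgt d)
    rw [h2, col_HW hv]
  · have h1 := h v (by rw [old_eq]; exact Or.inl hv)
    have h2 := h (T.src d) (by rw [old_eq]; exact Or.inl ⟨0, by omega, rfl⟩)
    rw [h1]
    change _ = σ' (T.src d)
    rw [h2, col_HB hv]

/-- Union of two families with the same roots. -/
theorem Coll.union {ι : Type*} {S S' : ι → Set V} {r : ι → V} (h : Coll T S r) (h' : Coll T S' r)
    (hc : ∀ i j v, v ∈ S i → v ∈ S' j → i = j) : Coll T (fun i => S i ∪ S' i) r where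
  disj := by
    rintro i j v (h1 | h1) (h2 | h2)
    · exact h.disj _ _ _ h1 h2
    · exact hc _ _ _ h1 h2
    · exact (hc _ _ _ h2 h1).symm
    · exact h'.disj _ _ _ h1 h2
  root := fun i => Or.inl (h.root i)
  conn := by
    rintro i x (hx | hx)
    · obtain ⟨l, a1, a2⟩ := h.conn i x hx
      exact ⟨l, a1, fun g hg => ⟨Or.inl (a2 g hg).1, Or.inl (a2 g hg).2⟩⟩
    · obtain ⟨l, a1, a2⟩ := h'.conn i x hx
      exact ⟨l, a1, fun g hg => ⟨Or.inr (a2 g hg).1, Or.inr (a2 g hg).2⟩⟩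

/-- The explored sets of a two sided exploration of the strand of `d`: `t` steps forward, `s` steps
backward. -/
def HS3 (T : Tri V D) (σ : V → Bool) (d : D) (t s : ℕ) : Bool → Set V
  | true => HB T σ d t ∪ HW T σ (T.rev d) s
  | false => HW T σ d t ∪ HB T σ (T.rev d) s

theorem old_rev_eq {s : ℕ} : Old T σ (T.rev d) s = HW T σ (T.rev d) s ∪ HB T σ (T.rev d) s := by
  rw [old_eq, Set.union_comm]

theorem coll_HS3 (hb : T.Bi σ d) (t s : ℕ) : Coll T (HS3 T σ d t s) (rt2 T d) where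
  disj := by
    have hb' : T.Bi σ (T.rev d) := T.bi_rev.2 hb
    have c1 : ∀ v, v ∈ HB T σ d t ∪ HW T σ (T.rev d) s → σ v = σ (T.src d) := by
      rintro v (h | h)
      · exact col_HB h
      · rw [col_HW h, T.tgt_rev]
    have c2 : ∀ v, v ∈ HW T σ d t ∪ HB T σ (T.rev d) s → σ v = σ (T.tgt d) := by
      rintro v (h | h)
      · exact col_HW h
      · rw [col_HB h, T.src_rev]
    rintro (_ | _) (_ | _) v h1 h2
    · rfl
    · exact absurd ((c1 v h2).symm.trans (c2 v h1)) hb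
    · exact absurd ((c1 v h1).symm.trans (c2 v h2)) hb
    · rfl
  root := by
    rintro (_ | _)
    · exact Or.inl ⟨0, by omega, rfl⟩
    · exact Or.inl ⟨0, by omega, rfl⟩
  conn := by
    have hb' : T.Bi σ (T.rev d) := T.bi_rev.2 hb
    rintro (_ | _) x (hx | hx)
    · obtain ⟨l, a1, a2⟩ := HW_conn hb hx
      exact ⟨l, a1, fun g hg => ⟨Or.inl (a2 g hg).1, Or.inl (a2 g hg).2⟩⟩
    · obtain ⟨l, a1, a2⟩ := HB_conn hb' hx
      exact ⟨l, a1, fun g hg => ⟨Or.inr (a2 g hg).1, Or.inr (a2 g hg).2⟩⟩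
    · obtain ⟨l, a1, a2⟩ := HB_conn hb hx
      exact ⟨l, a1, fun g hg => ⟨Or.inl (a2 g hg).1, Or.inl (a2 g hg).2⟩⟩
    · obtain ⟨l, a1, a2⟩ := HW_conn hb' hx
      rw [T.tgt_rev] at a1
      exact ⟨l, a1, fun g hg => ⟨Or.inr (a2 g hg).1, Or.inr (a2 g hg).2⟩⟩

/-- The domain after a two sided exploration. -/
noncomputable def TE2 (T : Tri V D) (σ : V → Bool) (d : D) (hb : T.Bi σ d) (t s : ℕ) : Tri V D :=
  tmap T (col (HS3 T σ d t s) (rt2 T d)) (coll_HS3 hb t s).fib

theorem TE2_planar (hP : T.Planar) (hb : T.Bi σ d) (t s : ℕ) : (TE2 T σ d hb t s).Planar :=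
  planar_tmap hP

theorem comp_col_eq2 (hb : T.Bi σ d) {s : ℕ} {σ' : V → Bool} (h : ∀ v ∈ Old T σ d t, σ' v = σ v)
    (h' : ∀ v ∈ Old T σ (T.rev d) s, σ' v = σ v) :
    σ' ∘ col (HS3 T σ d t s) (rt2 T d) = σ' := by
  apply (coll_HS3 hb t s).comp_eq
  have e1 : σ' (T.src d) = σ (T.src d) := h _ ⟨0, by omega, Or.inl rfl⟩
  have e2 : σ' (T.tgt d) = σ (T.tgt d) := h _ ⟨0, by omega, Or.inr rfl⟩
  rintro (_ | _) v (hv | hv)
  · rw [h v (by rw [old_eq]; exact Or.inr hv)]
    change _ = σ' (T.tgt d)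
    rw [e2, col_HW hv]
  · rw [h' v (by rw [old_eq]; exact Or.inl hv)]
    change _ = σ' (T.tgt d)
    rw [e2, col_HB hv, T.src_rev]
  · rw [h v (by rw [old_eq]; exact Or.inl hv)]
    change _ = σ' (T.src d)
    rw [e1, col_HB hv]
  · rw [h' v (by rw [old_eq]; exact Or.inr hv)]
    change _ = σ' (T.src d)
    rw [e1, col_HW hv, T.tgt_rev]

/-! ### class relations in a quotient -/

section rel

variable {V1 : Type*} {π : V → V1} {hf : FibConn T π} {σ1 : V1 → Bool}

/-- If no source strictly after `o` and up to `e` is identified with another source, the class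
relation survives in the quotient. -/
theorem rel_tmap_of_rel [Finite D] {o : D} {n : ℕ} (hr : T.Rel (σ1 ∘ π) o ((T.st (σ1 ∘ π))^[n] o))
    (hn : n < minimalPeriod (T.st (σ1 ∘ π)) o)
    (hin : ∀ i j, 1 ≤ i → i ≤ n → n < j → j ≤ minimalPeriod (T.st (σ1 ∘ π)) o →
      π (T.src ((T.st (σ1 ∘ π))^[i] o)) = π (T.src ((T.st (σ1 ∘ π))^[j] o)) →
      T.src ((T.st (σ1 ∘ π))^[i] o) = T.src ((T.st (σ1 ∘ π))^[j] o)) :
    (tmap T π hf).Rel σ1 o ((T.st (σ1 ∘ π))^[n] o) := by
  have hd := T.rel_pos hn hr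
  refine ⟨hr.1, hr.2.1, n, hn, rfl, ?_⟩
  intro i j h1 h2 h3 h4 h5
  exact hd i j h1 h2 h3 h4 (hin i j h1 h2 h3 h4 h5)

end rel

/-! ### the class after an exploration -/

section after

variable [Finite D] {σ' : V → Bool} {o : D}

/-- **Classes after an exploration.**  `o` is a minority dart whose strand enters at `d`; `t` steps
of the strand of `d` are explored.  A dart met later is in the class of `o` in the explored domain iff
it is in the class of `o`. -/
theorem rel_TE_iff (hb : T.Bi σ d) (h : ∀ v ∈ Old T σ d t, σ' v = σ v) (hd : T.st σ' o = d)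
    {n : ℕ} (htn : t < n) (hn : n < minimalPeriod (T.st σ') o) :
    (TE T σ d hb t).Rel σ' o ((T.st σ')^[n] o) ↔ T.Rel σ' o ((T.st σ')^[n] o) := by
  have hc := comp_col_eq hb h
  have hbo : T.Bi σ' o := by
    rw [← T.bi_st, hd]
    have e1 : σ' (T.src d) = σ (T.src d) := h _ ⟨0, by omega, Or.inl rfl⟩
    have e2 : σ' (T.tgt d) = σ (T.tgt d) := h _ ⟨0, by omega, Or.inr rfl⟩
    unfold Tri.Bi
    rw [e1, e2]
    exact hb
  constructor
  · intro hr
    have := tmap_rel hr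
    rwa [hc] at this
  · intro hr
    have key := @rel_tmap_of_rel V D T V (col (HS2 T σ d t) (rt2 T d)) (coll_HS2 hb t).fib σ' _ o n
    rw [hc] at key
    refine key hr hn ?_
    intro i j h1 h2 h3 h4 h5
    have hdis := T.rel_pos hn hr
    by_contra hne
    rcases (coll_HS2 hb t).eq_or h5 with h6 | ⟨b, h6, h7⟩
    · exact hne h6
    · have hsrc : ∀ k, σ' (T.src ((T.st σ')^[k] o)) = σ' (T.src o) := fun k => T.col_src_iter σ' o k
      cases b with
      | true =>
        obtain ⟨k, hk, h8⟩ := h7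
        have h9 : (T.st σ)^[k] d = (T.st σ')^[k + 1] o := by
          rw [iterate_succ, comp_apply, hd]
          exact (iter_congr T h k hk).symm
        rw [h9] at h8
        exact hdis (k + 1) j (by omega) (by omega) h3 h4 h8
      | false =>
        -- a source cannot be on the other side
        obtain ⟨k, hk, h8⟩ := h7
        have h9 : (T.st σ)^[k] d = (T.st σ')^[k + 1] o := by
          rw [iterate_succ, comp_apply, hd]
          exact (iter_congr T h k hk).symm
        rw [h9] at h8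
        have h10 := T.col_tgt_iter σ' o (k + 1)
        have h11 := hsrc j
        rw [h8, h11] at h10
        exact hbo h10

/-- Explored darts are not in the class of `o` in the explored domain. -/
theorem not_rel_TE (hb : T.Bi σ d) (h : ∀ v ∈ Old T σ d t, σ' v = σ v) (hd : T.st σ' o = d)
    {n : ℕ} (h1 : 1 ≤ n) (htn : n ≤ t) (hn : n < minimalPeriod (T.st σ') o) :
    ¬ (TE T σ d hb t).Rel σ' o ((T.st σ')^[n] o) := by
  intro hr
  have hc := comp_col_eq hb h
  have hst : (TE T σ d hb t).st σ' = T.st σ' := by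
    change T.st (σ' ∘ col (HS2 T σ d t) (rt2 T d)) = _
    rw [hc]
  have hdis : (TE T σ d hb t).Disj σ' o n := by
    apply (TE T σ d hb t).rel_pos
    · rw [hst]; exact hn
    · rw [hst]; exact hr
  have h5 := hdis n (n + 1) h1 le_rfl (by omega) (by rw [hst]; omega)
  apply h5
  rw [hst]
  change col _ _ (T.src _) = col _ _ (T.src _)
  have e1 : ∀ k, 1 ≤ k → k ≤ t + 1 → T.src ((T.st σ')^[k] o) ∈ HS2 T σ d t true := by
    intro k hk1 hk2
    refine ⟨k - 1, by omega, ?_⟩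
    rw [← iter_congr T h (k - 1) (by omega)]
    obtain ⟨m, rfl⟩ : ∃ m, k = m + 1 := ⟨k - 1, by omega⟩
    rw [iterate_succ, comp_apply, hd]
    rfl
  rw [(coll_HS2 hb t).col_mem (e1 n h1 (by omega)),
    (coll_HS2 hb t).col_mem (e1 (n + 1) (by omega) (by omega))]

end after

/-! ### conditional energy bound -/

section energy

open Vale.Agent.P148.R2.H203

variable {ι : Type*} [Fintype ι] [Fintype V] [Fintype D] {S : ι → Set V} {r : ι → V}

open Classical in
/-- **Conditional energy bound.**  Given the colours on the collapsed sets, the mean total energy of the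
collapsed domain is at most `2 ^ |ι|` times the free energy. -/
theorem Coll.cond_tot (h : Coll T S r) (hP : T.Planar) {τ : ℂ} (hτ : τ ^ 2 + τ + 1 = 0) {Θ : D → ℂ}
    (hΘ : ∀ d, Θ (T.nxt d) = τ ^ 2 * Θ d)
    (hg : ∀ d, ¬ (tmap T (col S r) h.fib).Good d → Θ d = 0) (σ₀ : V → Bool) :
    ∑ σ : V → Bool, tot (tmap T (col S r) h.fib) (mix (⋃ i, S i) σ₀ σ) Θ ≤
      2 ^ Fintype.card ι * (2 ^ Fintype.card V / 4 * ∑ d, ‖Θ d‖ ^ 2) := by
  classical
  set F : Finset V := Finset.univ.image r with hF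
  have h1 : ∀ σ : V → Bool, tot (tmap T (col S r) h.fib) (mix (⋃ i, S i) σ₀ σ) Θ =
      tot (tmap T (col S r) h.fib) (mix (F : Set V) σ₀ σ) Θ := by
    intro σ
    apply tot_congr
    intro d
    change mix (⋃ i, S i) σ₀ σ (col S r (T.src d)) = mix (F : Set V) σ₀ σ (col S r (T.src d))
    by_cases hv : ∃ i, T.src d ∈ S i
    · obtain ⟨i, hi⟩ := hv
      rw [h.col_mem hi, mix_mem (Set.mem_iUnion.2 ⟨i, h.root i⟩), mix_mem]
      rw [hF]
      simp
    · rw [col_not_mem (not_exists.1 hv), mix_not_mem (by simpa using hv), mix_not_mem]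
      intro hmem
      rw [hF, Finset.mem_coe, Finset.mem_image] at hmem
      obtain ⟨i, -, hi⟩ := hmem
      exact hv ⟨i, by rw [← hi]; exact h.root i⟩
  have h2 := frozen_tot (tmap T (col S r) h.fib) (planar_tmap hP) hτ hΘ hg F σ₀
  rw [Finset.sum_congr rfl (fun σ _ => h1 σ)]
  refine h2.trans (mul_le_mul_of_nonneg_right ?_ (by positivity))
  apply pow_le_pow_right₀ (by norm_num)
  exact Finset.card_image_le

omit [Fintype V] [Fintype D] in
theorem iUnion_HS2 : ⋃ b, HS2 T σ d t b = Old T σ d t := by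
  rw [old_eq]
  ext v
  simp only [Set.mem_iUnion, Bool.exists_bool, HS2, Set.mem_union]
  exact or_comm

omit [Fintype V] [Fintype D] in
theorem iUnion_HS3 {s : ℕ} : ⋃ b, HS3 T σ d t s b = Old T σ d t ∪ Old T σ (T.rev d) s := by
  rw [old_eq, old_eq]
  ext v
  simp only [Set.mem_iUnion, Bool.exists_bool, HS3, Set.mem_union]
  tauto

open Classical in
/-- Conditional energy bound after `t` steps of an exploration. -/
theorem cond_TE (hP : T.Planar) {τ : ℂ} (hτ : τ ^ 2 + τ + 1 = 0) {Θ : D → ℂ}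
    (hΘ : ∀ d, Θ (T.nxt d) = τ ^ 2 * Θ d) (hb : T.Bi σ d)
    (hg : ∀ e, ¬ (TE T σ d hb t).Good e → Θ e = 0) :
    ∑ σ' : V → Bool, tot (TE T σ d hb t) (mix (Old T σ d t) σ σ') Θ ≤
      2 ^ Fintype.card V * ∑ d, ‖Θ d‖ ^ 2 := by
  have := (coll_HS2 hb t).cond_tot hP hτ hΘ hg σ
  rw [iUnion_HS2, Fintype.card_bool] at this
  refine this.trans (le_of_eq ?_)
  ring

open Classical in
/-- Conditional energy bound after a two sided exploration. -/
theorem cond_TE2 (hP : T.Planar) {τ : ℂ} (hτ : τ ^ 2 + τ + 1 = 0) {Θ : D → ℂ}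
    (hΘ : ∀ d, Θ (T.nxt d) = τ ^ 2 * Θ d) (hb : T.Bi σ d) {s : ℕ}
    (hg : ∀ e, ¬ (TE2 T σ d hb t s).Good e → Θ e = 0) :
    ∑ σ' : V → Bool, tot (TE2 T σ d hb t s) (mix (Old T σ d t ∪ Old T σ (T.rev d) s) σ σ') Θ ≤
      2 ^ Fintype.card V * ∑ d, ‖Θ d‖ ^ 2 := by
  have := (coll_HS3 hb t s).cond_tot hP hτ hΘ hg σ
  rw [iUnion_HS3, Fintype.card_bool] at this
  refine this.trans (le_of_eq ?_)
  ring

end energy

end Vale.Agent.P148.R2.H532
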