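import Vale.Agent.P148.R2.H838.Law
import Vale.Agent.P148.R2.H532.Expl

/-!
# P148, row N4W, averages, part 1 (AV2): fairness of the near colouring

`x` : the known coins off the near region `N`; `s = glue N t x` the composite colouring, `t` fair.
`S` : a stopping set (the stopped strand of the loop); `R` : a larger stopping set which grows only
in `N` (the rest of the loop).  `F s w` : a function of `S s`, of the colours of `s` on `S s`, and of
the colours of `w` off `S s` (the energy of the world in which `S s` is frozen).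

* `near_fair` : `w = s` on `R`, independent colours off `R` is exactly fair off `S`.
* `near_fair₂` : the same with `s12` of two near coins.
* `Coll.ex_tot` : the energy bound of a collapsed triangulation as a mean.
-/

open Finset
open scoped Classical

namespace Vale.Agent.P148.R2.H532

open Vale.Agent.P148.R2.H838 hiding pr mix pr_nonneg
open Vale.Agent.P148.R2.H953 Vale.Agent.P148.R2.H258
  Vale.Agent.P148.R2.H203

variable {V : Type*} [Fintype V]

/-- The near form of a stopping set. -/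
theorem isStop_near {A : (V → Bool) → Set V} (hA : H953.IsStop A) (N : Set V) (x : V → Bool) :
    H953.IsStop fun t => A (glue N t x) := by
  intro t t' h
  refine hA _ _ fun v hv => ?_
  by_cases h1 : v ∈ N
  · rw [glue_mem h1, glue_mem h1, h v hv]
  · rw [glue_not_mem h1, glue_not_mem h1]

/-- The near form of a measurable function. -/
theorem meas_near {β : Sort*} {A : (V → Bool) → Set V} {g : (V → Bool) → β} (hg : Meas A g)
    (N : Set V) (x : V → Bool) : Meas (fun t => A (glue N t x)) fun t => g (glue N t x) := by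
  intro t t' h
  refine hg _ _ fun v hv => ?_
  by_cases h1 : v ∈ N
  · rw [glue_mem h1, glue_mem h1, h v hv]
  · rw [glue_not_mem h1, glue_not_mem h1]

/-- A stopping set after a first exploration. -/
theorem isStop_after {A : (V → Bool) → Set V} (hA : H953.IsStop A) (S : Set V) (t : V → Bool) :
    H953.IsStop fun u => A (glue S t u) := by
  intro u u' h
  refine hA _ _ fun v hv => ?_
  by_cases h1 : v ∈ S
  · rw [glue_mem h1, glue_mem h1]
  · rw [glue_not_mem h1, glue_not_mem h1, h v hv]

/-- **Fairness of the near colouring.** -/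
theorem near_fair {N : Set V} {x : V → Bool} {S R : (V → Bool) → Set V}
    (hS : H953.IsStop S) (hR : H953.IsStop R)
    (hRN : ∀ t, R (glue N t x) \ S (glue N t x) ⊆ N)
    {F : (V → Bool) → (V → Bool) → ℝ} (hF : Meas S F)
    (hb : ∀ s w w', (∀ v ∉ S s, w' v = w v) → F s w' = F s w) :
    (ex fun t => ex fun ρ => F (glue N t x) (glue (R (glue N t x)) (glue N t x) ρ)) =
      ex fun t => ex (F (glue N t x)) := by
  have hS' := isStop_near hS N x
  have hR' := isStop_near hR N x
  rw [← ex_resample hS' fun t => ex fun ρ =>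
    F (glue N t x) (glue (R (glue N t x)) (glue N t x) ρ)]
  refine ex_congr fun t => ?_
  have hF' : ∀ u, F (glue N (glue (S (glue N t x)) t u) x) = F (glue N t x) := fun u =>
    meas_near hF N x _ _ (agree_glue _ _ _)
  have hSu : ∀ u, S (glue N (glue (S (glue N t x)) t u) x) = S (glue N t x) := fun u =>
    hS' _ _ (agree_glue _ _ _)
  have hRu : H953.IsStop fun u => R (glue N (glue (S (glue N t x)) t u) x) :=
    isStop_after hR' (S (glue N t x)) t
  rw [← ex_resample hRu (F (glue N t x))]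
  refine ex_congr fun u => ex_congr fun ρ => ?_
  rw [hF' u]
  refine hb _ _ _ fun v hv => ?_
  by_cases h1 : v ∈ R (glue N (glue (S (glue N t x)) t u) x)
  · have h2 : v ∈ N := hRN _ ⟨h1, by rw [hSu]; exact hv⟩
    rw [glue_mem h1, glue_mem h1, glue_mem h2, glue_not_mem hv]
  · rw [glue_not_mem h1, glue_not_mem h1]

/-- **The same with two near coins** `t₁, t₂` and near hubs `H`. -/
theorem near_fair₂ {N : Set V} {x : V → Bool} {S R H : (V → Bool) → Set V}
    (hS : H953.IsStop S) (hR : H953.IsStop R) (hH : H953.IsStop H)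
    (hRN : ∀ t, R (glue N t x) \ S (glue N t x) ⊆ N)
    {F : (V → Bool) → (V → Bool) → ℝ} (hF : Meas S F)
    (hb : ∀ s w w', (∀ v ∉ S s, w' v = w v) → F s w' = F s w) :
    (ex fun t₁ => ex fun t₂ => ex fun ρ => F (glue N (s12 H t₁ t₂) x)
      (glue (R (glue N (s12 H t₁ t₂) x)) (glue N (s12 H t₁ t₂) x) ρ)) =
      ex fun t => ex (F (glue N t x)) := by
  rw [s12_fair hH fun t => ex fun ρ => F (glue N t x) (glue (R (glue N t x)) (glue N t x) ρ)]
  exact near_fair hS hR hRN hF hb

/-- Bound of the near mean. -/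
theorem near_le {N : Set V} {x : V → Bool} {S R H : (V → Bool) → Set V}
    (hS : H953.IsStop S) (hR : H953.IsStop R) (hH : H953.IsStop H)
    (hRN : ∀ t, R (glue N t x) \ S (glue N t x) ⊆ N)
    {F : (V → Bool) → (V → Bool) → ℝ} (hF : Meas S F)
    (hb : ∀ s w w', (∀ v ∉ S s, w' v = w v) → F s w' = F s w) {M : ℝ}
    (hM : ∀ s, ex (F s) ≤ M) :
    (ex fun t₁ => ex fun t₂ => ex fun ρ => F (glue N (s12 H t₁ t₂) x)
      (glue (R (glue N (s12 H t₁ t₂) x)) (glue N (s12 H t₁ t₂) x) ρ)) ≤ M := by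
  rw [near_fair₂ hS hR hH hRN hF hb, ← ex_const (V := V) M]
  exact ex_mono fun t => hM _

/-! ### the composite of near and far coins -/

/-- If the hubs of the composite coin are far hubs off `N` and near hubs in `N`, the composite
colouring is the near composite in `N` and the far one off `N`. -/
theorem s12_split {N : Set V} {H Hf Hn : (V → Bool) → Set V} {c₁ c₂ t₁ t₂ y₁ y₂ : V → Bool}
    (e1 : c₁ = glue N t₁ y₁) (e2 : c₂ = glue N t₂ y₂) (h : H c₁ = Hf y₁ ∪ Hn t₁)
    (hf : Disjoint (Hf y₁) N) (hn : Hn t₁ ⊆ N) :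
    s12 H c₁ c₂ = glue N (s12 Hn t₁ t₂) (s12 Hf y₁ y₂) := by
  unfold s12
  rw [h]
  funext v
  by_cases hN : v ∈ N
  · have h1 : v ∉ Hf y₁ := fun h2 => Set.disjoint_left.1 hf h2 hN
    rw [glue_mem hN]
    by_cases h2 : v ∈ Hn t₁
    · rw [glue_mem (show v ∈ Hf y₁ ∪ Hn t₁ from Or.inr h2), glue_mem h2, e1, glue_mem hN]
    · rw [glue_not_mem (show v ∉ Hf y₁ ∪ Hn t₁ from fun h3 => h3.elim h1 h2), glue_not_mem h2, e2,
        glue_mem hN]
  · have h2 : v ∉ Hn t₁ := fun h3 => hN (hn h3)
    rw [glue_not_mem hN]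
    by_cases h1 : v ∈ Hf y₁
    · rw [glue_mem (show v ∈ Hf y₁ ∪ Hn t₁ from Or.inl h1), glue_mem h1, e1, glue_not_mem hN]
    · rw [glue_not_mem (show v ∉ Hf y₁ ∪ Hn t₁ from fun h3 => h3.elim h1 h2), glue_not_mem h1, e2,
        glue_not_mem hN]

/-! ### AV3: the product law, near and far events -/

/-- Resampling the coins of a fixed region. -/
theorem ex_region (N : Set V) (f : (V → Bool) → ℝ) :
    ex f = ex fun y => ex fun t => f (glue N t y) := by
  have h := ex_resample (isStop_const Nᶜ) f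
  rw [← h]
  refine ex_congr fun y => ex_congr fun t => ?_
  rw [glue_compl]

theorem ex_region₂ (N : Set V) (f : (V → Bool) → (V → Bool) → ℝ) :
    (ex fun c₁ => ex fun c₂ => f c₁ c₂) =
      ex fun y₁ => ex fun y₂ => ex fun t₁ => ex fun t₂ => f (glue N t₁ y₁) (glue N t₂ y₂) := by
  rw [ex_region N fun c₁ => ex fun c₂ => f c₁ c₂]
  refine ex_congr fun y₁ => ?_
  have h : ∀ t₁, (ex fun c₂ => f (glue N t₁ y₁) c₂) =
      ex fun y₂ => ex fun t₂ => f (glue N t₁ y₁) (glue N t₂ y₂) := fun t₁ => ex_region N _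
  simp only [h]
  exact ex_comm fun t₁ y₂ => ex fun t₂ => f (glue N t₁ y₁) (glue N t₂ y₂)

/-- **The conditioned product law**: far events `A_f`, `B_f` look off `N`, near events `A_n`, `B_n`
are independent of them. A nonnegative function whose mean over the near coins (on the near
events) is at most `M` given the far coins has mean at most `M / (pr A_n * pr B_n)`. -/
theorem qd_near_le {N : Set V} {A B Af Bf An Bn : (V → Bool) → Prop}
    (hA : ∀ c, A c ↔ Af c ∧ An c) (hB : ∀ c, B c ↔ Bf c ∧ Bn c)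
    (hAf : On Nᶜ Af) (hBf : On Nᶜ Bf)
    {UA UA' UB UB' : Set V} (hUA : Disjoint UA UA') (hUB : Disjoint UB UB')
    (oAf : On UA Af) (oAn : On UA' An) (oBf : On UB Bf) (oBn : On UB' Bn)
    {f : (V → Bool) → (V → Bool) → ℝ} {M : ℝ} (hM : 0 ≤ M)
    (h : ∀ y₁ y₂, Af y₁ → Bf y₂ → (ex fun t₁ => ex fun t₂ =>
      if An (glue N t₁ y₁) ∧ Bn (glue N t₂ y₂) then f (glue N t₁ y₁) (glue N t₂ y₂) else 0) ≤ M) :
    (ex fun c₁ => ex fun c₂ => qd A B c₁ c₂ * f c₁ c₂) ≤ M / (pr An * pr Bn) := by
  -- probabilities factorise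
  have pA : pr A = pr Af * pr An := by
    unfold pr
    rw [← ex_mul_of_disjoint hUA oAf.ind oAn.ind]
    refine ex_congr fun c => ?_
    by_cases h1 : Af c <;> by_cases h2 : An c <;> simp [hA, h1, h2]
  have pB : pr B = pr Bf * pr Bn := by
    unfold pr
    rw [← ex_mul_of_disjoint hUB oBf.ind oBn.ind]
    refine ex_congr fun c => ?_
    by_cases h1 : Bf c <;> by_cases h2 : Bn c <;> simp [hB, h1, h2]
  have hAn := pr_nonneg An
  have hBn := pr_nonneg Bn
  by_cases h0 : pr A = 0 ∨ pr B = 0
  · have hz : ∀ c₁ c₂, qd A B c₁ c₂ = 0 := by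
      intro c₁ c₂
      unfold qd
      rcases h0 with h0 | h0 <;> rw [h0] <;> simp
    simp only [hz, zero_mul]
    rw [ex_const, ex_const]
    positivity
  push Not at h0
  obtain ⟨hA0, hB0⟩ := h0
  rw [pA] at hA0
  rw [pB] at hB0
  have hAf0 : pr Af ≠ 0 := left_ne_zero_of_mul hA0
  have hAn0 : pr An ≠ 0 := right_ne_zero_of_mul hA0
  have hBf0 : pr Bf ≠ 0 := left_ne_zero_of_mul hB0
  have hBn0 : pr Bn ≠ 0 := right_ne_zero_of_mul hB0
  have hAfp : 0 < pr Af := lt_of_le_of_ne (pr_nonneg _) hAf0.symm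
  have hAnp : 0 < pr An := lt_of_le_of_ne (pr_nonneg _) hAn0.symm
  have hBfp : 0 < pr Bf := lt_of_le_of_ne (pr_nonneg _) hBf0.symm
  have hBnp : 0 < pr Bn := lt_of_le_of_ne (pr_nonneg _) hBn0.symm
  have fA : ∀ t y : V → Bool, Af (glue N t y) = Af y := fun t y => by
    rw [← glue_compl]
    exact hAf _ _ (agree_glue _ _ _)
  have fB : ∀ t y : V → Bool, Bf (glue N t y) = Bf y := fun t y => by
    rw [← glue_compl]
    exact hBf _ _ (agree_glue _ _ _)
  rw [ex_region₂ N]
  have key : ∀ y₁ y₂, (ex fun t₁ => ex fun t₂ =>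
      qd A B (glue N t₁ y₁) (glue N t₂ y₂) * f (glue N t₁ y₁) (glue N t₂ y₂)) ≤
      (M / (pr A * pr B)) * ((if Af y₁ then 1 else 0) * (if Bf y₂ then 1 else 0)) := by
    intro y₁ y₂
    by_cases h1 : Af y₁
    · by_cases h2 : Bf y₂
      · have e : ∀ t₁ t₂, qd A B (glue N t₁ y₁) (glue N t₂ y₂) *
            f (glue N t₁ y₁) (glue N t₂ y₂) = (pr A * pr B)⁻¹ *
            (if An (glue N t₁ y₁) ∧ Bn (glue N t₂ y₂) then
              f (glue N t₁ y₁) (glue N t₂ y₂) else 0) := by
          intro t₁ t₂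
          unfold qd
          by_cases h3 : An (glue N t₁ y₁) <;> by_cases h4 : Bn (glue N t₂ y₂) <;>
            simp [hA, hB, fA, fB, h1, h2, h3, h4]
        simp only [e]
        have e2 : (ex fun t₁ => ex fun t₂ => (pr A * pr B)⁻¹ *
            (if An (glue N t₁ y₁) ∧ Bn (glue N t₂ y₂) then
              f (glue N t₁ y₁) (glue N t₂ y₂) else 0)) = (pr A * pr B)⁻¹ *
            ex fun t₁ => ex fun t₂ => (if An (glue N t₁ y₁) ∧ Bn (glue N t₂ y₂) then
              f (glue N t₁ y₁) (glue N t₂ y₂) else 0) := by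
          rw [← ex_smul]
          exact ex_congr fun t₁ => ex_smul _ _
        rw [e2, if_pos h1, if_pos h2, mul_one, mul_one, div_eq_inv_mul]
        refine mul_le_mul_of_nonneg_left (h y₁ y₂ h1 h2) ?_
        exact inv_nonneg.2 (mul_nonneg (pr_nonneg _) (pr_nonneg _))
      · have e : ∀ t₁ t₂, qd A B (glue N t₁ y₁) (glue N t₂ y₂) = 0 := by
          intro t₁ t₂
          unfold qd
          simp [hB, fB, h2]
        simp only [e, zero_mul]
        rw [ex_const, ex_const, if_neg h2]
        simp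
    · have e : ∀ t₁ t₂, qd A B (glue N t₁ y₁) (glue N t₂ y₂) = 0 := by
        intro t₁ t₂
        unfold qd
        simp [hA, fA, h1]
      simp only [e, zero_mul]
      rw [ex_const, ex_const, if_neg h1]
      simp
  refine (ex_mono fun y₁ => ex_mono fun y₂ => key y₁ y₂).trans (le_of_eq ?_)
  have e3 : (ex fun y₁ => ex fun y₂ => (M / (pr A * pr B)) *
      ((if Af y₁ then 1 else 0) * (if Bf y₂ then (1 : ℝ) else 0))) =
      (M / (pr A * pr B)) * (pr Af * pr Bf) := by
    have e4 : ∀ y₁ : V → Bool, (ex fun y₂ => (M / (pr A * pr B)) *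
        ((if Af y₁ then 1 else 0) * (if Bf y₂ then (1 : ℝ) else 0))) =
        (M / (pr A * pr B) * pr Bf) * (if Af y₁ then 1 else 0) := by
      intro y₁
      rw [ex_smul, ex_smul]
      change M / (pr A * pr B) * ((if Af y₁ then 1 else 0) * pr Bf) = _
      ring
    simp only [e4]
    rw [ex_smul]
    change M / (pr A * pr B) * pr Bf * pr Af = _
    ring
  rw [e3, pA, pB]
  field_simp

end Vale.Agent.P148.R2.H532
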