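import Vale.Agent.P148.R2.H838.NearLaw2
import Vale.Agent.P148.R2.H532.Av1

/-!
# P148, row N4W, averages: the closing form

`g` is the comb law, `N` the near region (hub boxes of the near gates inside it).  The reference darts
`o x` only depend on the colours of `x` off `N`.  For every value `a` of `o`: `S a ⊆ R a` stopping sets,
`R a` grows only in `N`; `F a x`, roots, decreed colours, all determined by `x` on `S a x = ⋃ F a x i`.

* `qe_near_S` : quenched mean of a general nonnegative `Φ (o x) x (glue (R (o x) x) x c₃)`.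
* `qe_near_tot` : the case of the energy of the world with the sets `F` collapsed.
-/

open Finset
open scoped Classical

namespace Vale.Agent.P148.R2.H532

open Vale.Agent.P148.R2.H838 hiding pr mix pr_nonneg
open Vale.Agent.P148.R2.H953 Vale.Agent.P148.R2.H258
  Vale.Agent.P148.R2.H203 Vale.Agent.P148.R2.H172

variable {V : Type*} [Fintype V] {g : GateLaw V} {c : ℝ} (hc : 0 < c)
  (hH : ∀ k < g.n, c ≤ H953.pr (g.He k)) (hC : ∀ k < g.n, c ≤ H953.pr (g.Ce k))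

include hc hH hC

/-- **Quenched mean near a gate, general form.** -/
theorem qe_near_S {α : Type*} {N : Set V} {t : Finset ℕ} (hN : g.Touch N t)
    (hin : ∀ k ∈ t, g.HB k ⊆ N) {o : (V → Bool) → α}
    (ho : ∀ x x' : V → Bool, (∀ v ∉ N, x' v = x v) → o x' = o x)
    {S R : α → (V → Bool) → Set V} (hS : ∀ a, H953.IsStop (S a)) (hR : ∀ a, H953.IsStop (R a))
    (hRN : ∀ x, R (o x) x \ S (o x) x ⊆ N)
    {Φ : α → (V → Bool) → (V → Bool) → ℝ} (h0 : ∀ a x z, 0 ≤ Φ a x z)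
    (hΦ : ∀ a, Meas (S a) (Φ a))
    (hb : ∀ a s w w', (∀ v ∉ S a s, w' v = w v) → Φ a s w' = Φ a s w) {M : ℝ} (hM0 : 0 ≤ M)
    (hM : ∀ x s, ex (Φ (o x) s) ≤ M) :
    g.qe (fun c₁ c₂ => ex fun c₃ => Φ (o (g.w c₁ c₂)) (g.w c₁ c₂)
      (glue (R (o (g.w c₁ c₂)) (g.w c₁ c₂)) (g.w c₁ c₂) c₃)) ≤ (c ^ (2 * t.card))⁻¹ * M := by
  refine Near.qe_nl hc hH hC hN hin
    (Ψ := fun x z => Φ (o x) x (glue (R (o x) x) x z)) (fun x z => h0 _ _ _) hM0 fun y => ?_
  have e : ∀ s, o (glue N s y) = o y := fun s => ho _ _ fun v hv => glue_not_mem hv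
  simp only [e]
  rw [near_fair (hS (o y)) (hR (o y)) (fun s => by
    have := hRN (glue N s y)
    rwa [e] at this) (hΦ (o y)) (hb (o y)), ← ex_const (V := V) M]
  exact ex_mono fun s => hM y _

/-- **Quenched energy near a gate** of the world with the sets `F` collapsed. -/
theorem qe_near_tot {α D ι : Type*} [Fintype ι] [Fintype D] {T : Tri V D} (hP : T.Planar) {τ : ℂ}
    (hτ : τ ^ 2 + τ + 1 = 0) {Θ : D → ℂ} (hΘ : ∀ d, Θ (T.nxt d) = τ ^ 2 * Θ d)
    {N N₀ : Set V} {t : Finset ℕ} (hN : g.Touch N t)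
    (hin : ∀ k ∈ t, g.HB k ⊆ N) {o : (V → Bool) → α}
    (ho : ∀ x x' : V → Bool, (∀ v ∉ N, x' v = x v) → o x' = o x)
    {R : α → (V → Bool) → Set V} (hR : ∀ a, H953.IsStop (R a))
    {F : α → (V → Bool) → ι → Set V} {r : α → (V → Bool) → ι → V}
    {dec : α → (V → Bool) → V → Bool}
    (hF : ∀ a x x', (∀ v ∈ ⋃ i, F a x i, x' v = x v) →
      F a x' = F a x ∧ r a x' = r a x ∧ dec a x' = dec a x)
    (hRN : ∀ x, R (o x) x \ (⋃ i, F (o x) x i) ⊆ N)
    (hN₀ : ∀ y x, Disjoint (⋃ i, F (o y) x i) N₀)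
    (hz : ∀ d, Θ d ≠ 0 → T.Good d ∧ T.src d ∈ N₀ ∧ T.tgt d ∈ N₀ ∧ T.apex d ∈ N₀) :
    g.qe (fun c₁ c₂ => ex fun c₃ => cotot T (F (o (g.w c₁ c₂)) (g.w c₁ c₂))
      (r (o (g.w c₁ c₂)) (g.w c₁ c₂)) (dec (o (g.w c₁ c₂)) (g.w c₁ c₂)) Θ
      (glue (R (o (g.w c₁ c₂)) (g.w c₁ c₂)) (g.w c₁ c₂) c₃)) ≤
      (c ^ (2 * t.card))⁻¹ * (2 ^ Fintype.card ι / 4 * ∑ d, ‖Θ d‖ ^ 2) := by
  refine qe_near_S hc hH hC hN hin ho (S := fun a x => ⋃ i, F a x i)
    (Φ := fun a x z => cotot T (F a x) (r a x) (dec a x) Θ z)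
    (fun a x x' h => ?_) hR hRN (fun a x z => cotot_nonneg _ _ _) (fun a x x' h => ?_)
    (fun a s w w' h => ?_) (by positivity) fun x s => ?_
  · dsimp only
    rw [(hF a x x' h).1]
  · obtain ⟨h1, h2, h3⟩ := hF a x x' h
    dsimp only
    rw [h1, h2, h3]
  · exact cotot_blind _ _ _ _ fun v hv => h v hv
  · refine ex_cotot_le hP hτ hΘ (fun h d hd => ?_) _
    by_contra hne
    obtain ⟨h1, h2, h3, h4⟩ := hz d hne
    apply hd
    have hcol : ∀ v ∈ N₀, H532.col (F (o x) s) (r (o x) s) v = v := fun v hv =>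
      col_not_mem fun i hi => Set.disjoint_left.1 (hN₀ x s) (Set.mem_iUnion.2 ⟨i, hi⟩) hv
    refine ⟨?_, ?_, ?_⟩
    · change H532.col (F (o x) s) (r (o x) s) (T.src d) ≠
        H532.col (F (o x) s) (r (o x) s) (T.tgt d)
      rw [hcol _ h2, hcol _ h3]
      exact h1.1
    · change H532.col (F (o x) s) (r (o x) s) (T.tgt d) ≠
        H532.col (F (o x) s) (r (o x) s) (T.apex d)
      rw [hcol _ h3, hcol _ h4]
      exact h1.2.1
    · change H532.col (F (o x) s) (r (o x) s) (T.apex d) ≠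
        H532.col (F (o x) s) (r (o x) s) (T.src d)
      rw [hcol _ h4, hcol _ h2]
      exact h1.2.2

end Vale.Agent.P148.R2.H532
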