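import Vale.Agent.P148.R2.H126.Frz
import Vale.Agent.P148.R2.H532.Av2

/-!
# P148, row N4W, averages: the stopped strand

* `qe_near_rs` : quenched energy of a world with collapsed sets; the weight is cut to the good faces.
* `FX`, `rX`, `dX`, `RX` : the frozen classes, roots, decreed colours and seen vertices of `H126.Frz`
  for a pair `a = (o, o')` of reference darts and a colouring `x`; `WX` the corresponding energy.
* `frz_avg` : the quenched mean of `WX` is at most `(c ^ (2 |t|))⁻¹ * (2 * ∑ ‖Θ‖ ^ 2)`.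
-/

open Finset
open scoped Classical

namespace Vale.Agent.P148.R2.H532

open Vale.Agent.P148.R2.H838 hiding pr pr_nonneg
open Vale.Agent.P148.R2.H953 Vale.Agent.P148.R2.H258 Vale.Agent.P148.R2.H871
  Vale.Agent.P148.R2.H203 Vale.Agent.P148.R2.H172

variable {V D ι : Type*} {T : Tri V D}

/-- Good faces of the world with the sets `F i` collapsed to `r i`. -/
def cgood (T : Tri V D) (F : ι → Set V) (r : ι → V) (d : D) : Prop :=
  H532.col F r (T.src d) ≠ H532.col F r (T.tgt d) ∧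
    H532.col F r (T.tgt d) ≠ H532.col F r (T.apex d) ∧
    H532.col F r (T.apex d) ≠ H532.col F r (T.src d)

theorem cgood_iff {F : ι → Set V} {r : ι → V} (h : Coll T F r) (d : D) :
    (tmap T (H532.col F r) h.fib).Good d ↔ cgood T F r d := Iff.rfl

theorem cgood_nxt {F : ι → Set V} {r : ι → V} (d : D) :
    cgood T F r (T.nxt d) ↔ cgood T F r d := by
  have key : ∀ d, cgood T F r d → cgood T F r (T.nxt d) := by
    rintro d ⟨h1, h2, h3⟩
    refine ⟨?_, ?_, ?_⟩
    · rw [T.src_nxt', T.tgt_nxt]; exact h2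
    · rw [T.tgt_nxt, T.apex_nxt]; exact h3
    · rw [T.apex_nxt, T.src_nxt']; exact h1
  refine ⟨fun h => ?_, key d⟩
  have := key _ (key _ h)
  rwa [T.nxt3] at this

/-- A good face with no two corners in a common set is good in the collapsed world. -/
theorem cgood_of {F : ι → Set V} {r : ι → V} (h : Coll T F r) {d : D} (hg : T.Good d)
    (hF : ∀ i, ¬ (T.src d ∈ F i ∧ T.tgt d ∈ F i) ∧ ¬ (T.tgt d ∈ F i ∧ T.apex d ∈ F i) ∧
      ¬ (T.apex d ∈ F i ∧ T.src d ∈ F i)) : cgood T F r d := by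
  refine ⟨fun h1 => ?_, fun h1 => ?_, fun h1 => ?_⟩
  · rcases h.eq_or h1 with h2 | ⟨i, h2, h3⟩
    · exact hg.1 h2
    · exact (hF i).1 ⟨h2, h3⟩
  · rcases h.eq_or h1 with h2 | ⟨i, h2, h3⟩
    · exact hg.2.1 h2
    · exact (hF i).2.1 ⟨h2, h3⟩
  · rcases h.eq_or h1 with h2 | ⟨i, h2, h3⟩
    · exact hg.2.2 h2
    · exact (hF i).2.2 ⟨h2, h3⟩

theorem sum_rs_le [Fintype D] (A : D → Prop) (Θ : D → ℂ) :
    ∑ d, ‖rs A Θ d‖ ^ 2 ≤ ∑ d, ‖Θ d‖ ^ 2 := by
  refine Finset.sum_le_sum fun d _ => ?_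
  unfold rs
  split_ifs
  · exact le_rfl
  · simp

/-- The mean energy of a world with collapsed sets, weight cut to its good faces. -/
theorem ex_cotot_rs [Fintype V] [Fintype D] [Fintype ι] (hP : T.Planar) {τ : ℂ}
    (hτ : τ ^ 2 + τ + 1 = 0) {Θ : D → ℂ} (hΘ : ∀ d, Θ (T.nxt d) = τ ^ 2 * Θ d) (F : ι → Set V)
    (r : ι → V) (σ₀ : V → Bool) :
    ex (cotot T F r σ₀ (rs (cgood T F r) Θ)) ≤ 2 ^ Fintype.card ι / 4 * ∑ d, ‖Θ d‖ ^ 2 := by
  refine (ex_cotot_le hP hτ (fun d => ?_) (fun h d hd => ?_) σ₀).trans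
    (mul_le_mul_of_nonneg_left (sum_rs_le _ _) (by positivity))
  · unfold rs
    by_cases h : cgood T F r d
    · rw [if_pos h, if_pos ((cgood_nxt d).2 h), hΘ]
    · rw [if_neg h, if_neg fun h' => h ((cgood_nxt d).1 h'), mul_zero]
  · unfold rs
    exact if_neg fun h2 => hd h2

section law

variable [Fintype V] {g : GateLaw V} {c : ℝ} (hc : 0 < c)
  (hH : ∀ k < g.n, c ≤ H953.pr (g.He k)) (hC : ∀ k < g.n, c ≤ H953.pr (g.Ce k))

include hc hH hC

/-- **Quenched energy near a gate** of the world with the sets `F` collapsed, weight cut to the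
good faces of this world. -/
theorem qe_near_rs {α : Type*} [Fintype ι] [Fintype D] (hP : T.Planar) {τ : ℂ}
    (hτ : τ ^ 2 + τ + 1 = 0) {Θ : D → ℂ} (hΘ : ∀ d, Θ (T.nxt d) = τ ^ 2 * Θ d)
    {N : Set V} {t : Finset ℕ} (hN : g.Touch N t)
    (hin : ∀ k ∈ t, g.HB k ⊆ N) {o : (V → Bool) → α}
    (ho : ∀ x x' : V → Bool, (∀ v ∉ N, x' v = x v) → o x' = o x)
    {R : α → (V → Bool) → Set V} (hR : ∀ a, H953.IsStop (R a))
    {F : α → (V → Bool) → ι → Set V} {r : α → (V → Bool) → ι → V}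
    {dec : α → (V → Bool) → V → Bool}
    (hF : ∀ a x x', (∀ v ∈ ⋃ i, F a x i, x' v = x v) →
      F a x' = F a x ∧ r a x' = r a x ∧ dec a x' = dec a x)
    (hRN : ∀ x, R (o x) x \ (⋃ i, F (o x) x i) ⊆ N) :
    g.qe (fun c₁ c₂ => ex fun c₃ => cotot T (F (o (g.w c₁ c₂)) (g.w c₁ c₂))
      (r (o (g.w c₁ c₂)) (g.w c₁ c₂)) (dec (o (g.w c₁ c₂)) (g.w c₁ c₂))
      (rs (cgood T (F (o (g.w c₁ c₂)) (g.w c₁ c₂)) (r (o (g.w c₁ c₂)) (g.w c₁ c₂))) Θ)
      (glue (R (o (g.w c₁ c₂)) (g.w c₁ c₂)) (g.w c₁ c₂) c₃)) ≤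
      (c ^ (2 * t.card))⁻¹ * (2 ^ Fintype.card ι / 4 * ∑ d, ‖Θ d‖ ^ 2) := by
  refine qe_near_S hc hH hC hN hin ho (S := fun a x => ⋃ i, F a x i)
    (Φ := fun a x z => cotot T (F a x) (r a x) (dec a x) (rs (cgood T (F a x) (r a x)) Θ) z)
    (fun a x x' h => ?_) hR hRN (fun a x z => cotot_nonneg _ _ _) (fun a x x' h => ?_)
    (fun a s w w' h => ?_) (by positivity) fun x s => ?_
  · dsimp only
    rw [(hF a x x' h).1]
  · obtain ⟨h1, h2, h3⟩ := hF a x x' h
    dsimp only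
    rw [h1, h2, h3]
  · exact cotot_blind _ _ _ _ fun v hv => h v hv
  · exact ex_cotot_rs hP hτ hΘ _ _ _

end law

/-! ### the objects of `H126.Frz` -/

variable (T) (L : ℕ) (N N' : Set V) (a : D × D) (x : V → Bool)

/-- The frozen classes of the stopped strand of `a.1` (middle part up to `a.2`). -/
noncomputable def FX : Option Bool → Set V :=
  H126.FF T x a.1 (H126.tJ T L N a.1 a.2 x) (H126.tA T L N a.1 x) (H126.tB T L N a.1 x)

/-- Their roots. -/
noncomputable def rX : Option Bool → V := H126.rF T x a.1 (H126.tJ T L N a.1 a.2 x)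

/-- The decreed colours: the colour of `src a.1` on the two black classes, the colour of `tgt a.1`
elsewhere. -/
noncomputable def dX (v : V) : Bool :=
  if v ∈ FX T L N a x (some true) ∨ v ∈ FX T L N a x (some false) then x (T.src a.1)
    else x (T.tgt a.1)

/-- The colours of the world with the frozen classes. -/
noncomputable def sX (z : V → Bool) : V → Bool := mix (⋃ i, FX T L N a x i) (dX T L N a x) z

/-- The energy of the world with the frozen classes, weight cut to the good faces. -/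
noncomputable def WX [Fintype D] (Θ : D → ℂ) (z : V → Bool) : ℝ :=
  cotot T (FX T L N a x) (rX T L N a x) (dX T L N a x)
    (rs (cgood T (FX T L N a x) (rX T L N a x)) Θ) z

variable {T L N N' a x}

theorem iUnion_FX : ⋃ i, FX T L N a x i = H126.Ss T L N a.1 x := H126.iUnion_FF H126.tJ_le

theorem coll_FX (hb : T.Bi x a.1)
    (hd : ∀ v, v ∈ FX T L N a x (some true) → v ∉ FX T L N a x (some false)) :
    Coll T (FX T L N a x) (rX T L N a x) := H126.coll_FF hb H126.tJ_le hd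

theorem FX_congr {x' : V → Bool} (h : ∀ v ∈ H126.Ss T L N a.1 x, x' v = x v) :
    FX T L N a x' = FX T L N a x ∧ rX T L N a x' = rX T L N a x ∧
      dX T L N a x' = dX T L N a x := by
  have hA := H126.tA_congr h
  have hB := H126.tB_congr h
  have hJ := H126.tJ_congr (o' := a.2) h
  have hJA : H126.tJ T L N a.1 a.2 x ≤ H126.tA T L N a.1 x := H126.tJ_le
  have h1 : ∀ v ∈ Old T x a.1 (H126.tA T L N a.1 x), x' v = x v := fun v hv => h v (Or.inl hv)
  have h2 : ∀ v ∈ Old T x (T.rev a.1) (H126.tB T L N a.1 x), x' v = x v := fun v hv =>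
    h v (Or.inr hv)
  have hit := iter_congr T h1
  have e1 : HW T x' (T.rev a.1) (H126.tB T L N a.1 x) =
      HW T x (T.rev a.1) (H126.tB T L N a.1 x) := HW_congr h2
  have e2 : HB T x' ((T.st x')^[H126.tJ T L N a.1 a.2 x] a.1)
        (H126.tA T L N a.1 x - H126.tJ T L N a.1 a.2 x) =
      HB T x ((T.st x)^[H126.tJ T L N a.1 a.2 x] a.1)
        (H126.tA T L N a.1 x - H126.tJ T L N a.1 a.2 x) := by
    ext v
    have m1 := H126.mem_F2 (T := T) (s := x') (o := a.1) (b := 0) hJA (v := v)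
    have m2 := H126.mem_F2 (T := T) (s := x) (o := a.1) (b := 0) hJA (v := v)
    refine m1.trans (Iff.trans ?_ m2.symm)
    constructor
    · rintro ⟨i, h3, h4, h5⟩
      exact ⟨i, h3, h4, by rw [← hit i h4]; exact h5⟩
    · rintro ⟨i, h3, h4, h5⟩
      exact ⟨i, h3, h4, by rw [hit i h4]; exact h5⟩
  have e3 : {v | ∃ i, 0 < i ∧ i < H126.tJ T L N a.1 a.2 x ∧ T.src ((T.st x')^[i] a.1) = v} =
      {v | ∃ i, 0 < i ∧ i < H126.tJ T L N a.1 a.2 x ∧ T.src ((T.st x)^[i] a.1) = v} := by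
    ext v
    constructor
    · rintro ⟨i, h3, h4, h5⟩
      exact ⟨i, h3, h4, by rw [← hit i (by omega)]; exact h5⟩
    · rintro ⟨i, h3, h4, h5⟩
      exact ⟨i, h3, h4, by rw [hit i (by omega)]; exact h5⟩
  have hFX : FX T L N a x' = FX T L N a x := by
    unfold FX
    rw [hA, hB, hJ]
    funext i
    rcases i with _ | _ | _
    · change (HW T x' a.1 (H126.tA T L N a.1 x) ∪ HB T x' (T.rev a.1) (H126.tB T L N a.1 x)) ∪
        ({v | ∃ i, 0 < i ∧ i < H126.tJ T L N a.1 a.2 x ∧ T.src ((T.st x')^[i] a.1) = v} ∩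
          {v | v ∉ HW T x' (T.rev a.1) (H126.tB T L N a.1 x) ∧
            v ∉ HB T x' ((T.st x')^[H126.tJ T L N a.1 a.2 x] a.1)
              (H126.tA T L N a.1 x - H126.tJ T L N a.1 a.2 x)}) = _
      rw [e1, e2, e3, HW_congr h1, HB_congr h2]
      rfl
    · exact e2
    · exact e1
  refine ⟨hFX, ?_, ?_⟩
  · unfold rX
    rw [hJ]
    funext i
    rcases i with _ | _ | _
    · rfl
    · change T.src ((T.st x')^[H126.tJ T L N a.1 a.2 x] a.1) =
        T.src ((T.st x)^[H126.tJ T L N a.1 a.2 x] a.1)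
      rw [hit _ hJA]
    · rfl
  · funext v
    unfold dX
    rw [hFX, h (T.src a.1) (Or.inl ⟨0, Nat.zero_le _, Or.inl rfl⟩),
      h (T.tgt a.1) (Or.inl ⟨0, Nat.zero_le _, Or.inr rfl⟩)]

theorem sX_off {z : V → Bool} {v : V} (h : ∀ i, v ∉ FX T L N a x i) : sX T L N a x z v = z v := by
  unfold sX
  rw [mix, if_neg]
  rw [Set.mem_iUnion]
  push Not
  exact h

theorem sX_root {z : V → Bool} (b : Bool) :
    sX T L N a x z (rX T L N a x (some b)) = x (T.src a.1) := by
  have hr : rX T L N a x (some b) ∈ FX T L N a x (some b) := by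
    cases b with
    | true => exact ⟨0, Nat.zero_le _, T.tgt_rev _⟩
    | false => exact ⟨0, Nat.zero_le _, rfl⟩
  unfold sX
  rw [mix, if_pos (Set.mem_iUnion.2 ⟨_, hr⟩)]
  unfold dX
  rw [if_pos]
  cases b with
  | true => exact Or.inl hr
  | false => exact Or.inr hr

theorem sX_none {z : V → Bool} (h : Coll T (FX T L N a x) (rX T L N a x)) :
    sX T L N a x z (rX T L N a x none) = x (T.tgt a.1) := by
  have hr := h.root none
  unfold sX
  rw [mix, if_pos (Set.mem_iUnion.2 ⟨_, hr⟩)]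
  unfold dX
  rw [if_neg]
  rintro (h1 | h1)
  · exact absurd (h.disj _ _ _ hr h1) (by simp)
  · exact absurd (h.disj _ _ _ hr h1) (by simp)

/-- The energy in terms of the collapsed triangulation. -/
theorem WX_eq [Fintype V] [Fintype D] (h : Coll T (FX T L N a x) (rX T L N a x)) {Θ : D → ℂ}
    (hg : ∀ d, Θ d ≠ 0 → cgood T (FX T L N a x) (rX T L N a x) d) (z : V → Bool) :
    WX T L N a x Θ z =
      tot (tmap T (H532.col (FX T L N a x) (rX T L N a x)) h.fib) (sX T L N a x z) Θ := by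
  have e : rs (cgood T (FX T L N a x) (rX T L N a x)) Θ = Θ := by
    funext d
    unfold rs
    split_ifs with h1
    · rfl
    · by_contra h2
      exact h1 (hg d fun h3 => h2 h3.symm)
  unfold WX
  rw [e, cotot_eq h]
  rfl

theorem WX_nonneg [Fintype V] [Fintype D] (Θ : D → ℂ) (z : V → Bool) : 0 ≤ WX T L N a x Θ z :=
  cotot_nonneg _ _ _

/-- **The quenched mean of the energy of the windows.** `o` : the two reference darts, which only
depend on the colours off `N'`. -/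
theorem frz_avg [Fintype V] [Fintype D] {g : GateLaw V} {c : ℝ} (hc : 0 < c)
    (hH : ∀ k < g.n, c ≤ H953.pr (g.He k)) (hC : ∀ k < g.n, c ≤ H953.pr (g.Ce k))
    (hP : T.Planar) {τ : ℂ} (hτ : τ ^ 2 + τ + 1 = 0) {Θ : D → ℂ}
    (hΘ : ∀ d, Θ (T.nxt d) = τ ^ 2 * Θ d) {t : Finset ℕ} (hN : g.Touch N' t)
    (hin : ∀ k ∈ t, g.HB k ⊆ N') {o : (V → Bool) → D × D}
    (ho : ∀ x x' : V → Bool, (∀ v ∉ N', x' v = x v) → o x' = o x) :
    g.qe (fun c₁ c₂ => ex fun c₃ => WX T L N (o (g.w c₁ c₂)) (g.w c₁ c₂) Θ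
      (glue (H126.Rs T L N N' (o (g.w c₁ c₂)).1 (g.w c₁ c₂)) (g.w c₁ c₂) c₃)) ≤
      (c ^ (2 * t.card))⁻¹ * (2 * ∑ d, ‖Θ d‖ ^ 2) := by
  have h := qe_near_rs hc hH hC hP hτ hΘ hN hin ho (R := fun a => H126.Rs T L N N' a.1)
    (fun a => H126.isStop_Rs) (F := fun a x => FX T L N a x) (r := fun a x => rX T L N a x)
    (dec := fun a x => dX T L N a x)
    (fun a x x' h => FX_congr fun v hv => h v (by rw [iUnion_FX]; exact hv))
    (fun x => by
      rw [iUnion_FX]
      exact H126.Rs_sub)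
  refine h.trans (le_of_eq ?_)
  simp only [Fintype.card_option, Fintype.card_bool]
  norm_num

end Vale.Agent.P148.R2.H532
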