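import Vale.Agent.P148.R2.H532.Expl
import Vale.Agent.P148.R2.H871.N0c

/-!
# P148, row DM: the class of a dart after a two sided exploration of its strand
-/

namespace Vale.Agent.P148.R2.H532

open Function Vale.Agent.P148.R2.H258 Vale.Agent.P148.R2.H258.Tri Vale.Agent.P148.R2.H838
  Vale.Agent.P148.R2.H871 Vale.Agent.P148.R2.H203

variable {V D : Type*} {T : Tri V D} {σ σ' : V → Bool} {d : D} {t s : ℕ}

theorem HB_congr (h : ∀ v ∈ Old T σ d t, σ' v = σ v) : HB T σ' d t = HB T σ d t := by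
  ext v
  constructor
  · rintro ⟨i, hi, h1⟩
    exact ⟨i, hi, by rw [← iter_congr T h i hi]; exact h1⟩
  · rintro ⟨i, hi, h1⟩
    exact ⟨i, hi, by rw [iter_congr T h i hi]; exact h1⟩

theorem HW_congr (h : ∀ v ∈ Old T σ d t, σ' v = σ v) : HW T σ' d t = HW T σ d t := by
  ext v
  constructor
  · rintro ⟨i, hi, h1⟩
    exact ⟨i, hi, by rw [← iter_congr T h i hi]; exact h1⟩
  · rintro ⟨i, hi, h1⟩
    exact ⟨i, hi, by rw [iter_congr T h i hi]; exact h1⟩

theorem HS2_congr (h : ∀ v ∈ Old T σ d t, σ' v = σ v) : HS2 T σ' d t = HS2 T σ d t := by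
  funext b
  cases b
  · exact HW_congr h
  · exact HB_congr h

theorem HS3_congr (h : ∀ v ∈ Old T σ d t, σ' v = σ v)
    (h' : ∀ v ∈ Old T σ (T.rev d) s, σ' v = σ v) : HS3 T σ' d t s = HS3 T σ d t s := by
  funext b
  cases b
  · change HW T σ' d t ∪ HB T σ' (T.rev d) s = HW T σ d t ∪ HB T σ (T.rev d) s
    rw [HW_congr h, HB_congr h']
  · change HB T σ' d t ∪ HW T σ' (T.rev d) s = HB T σ d t ∪ HW T σ (T.rev d) s
    rw [HB_congr h, HW_congr h']

theorem TE_congr {hb : T.Bi σ d} {hb' : T.Bi σ' d} (h : ∀ v ∈ Old T σ d t, σ' v = σ v) :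
    TE T σ' d hb' t = TE T σ d hb t := by
  have e := HS2_congr h
  unfold TE
  congr 1
  rw [e]

theorem TE2_congr {hb : T.Bi σ d} {hb' : T.Bi σ' d} (h : ∀ v ∈ Old T σ d t, σ' v = σ v)
    (h' : ∀ v ∈ Old T σ (T.rev d) s, σ' v = σ v) : TE2 T σ' d hb' t s = TE2 T σ d hb t s := by
  have e := HS3_congr h h'
  unfold TE2
  congr 1
  rw [e]

/-- The union of the two explored sets is a stopping set, if `t` and `s` are constant. -/
theorem isStop_two (d : D) (t s : ℕ) :
    IsStop (fun σ : V → Bool => Old T σ d t ∪ Old T σ (T.rev d) s) := by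
  intro σ σ' h
  have h1 : ∀ v ∈ Old T σ d t, σ' v = σ v := fun v hv => h v (Or.inl hv)
  have h2 : ∀ v ∈ Old T σ (T.rev d) s, σ' v = σ v := fun v hv => h v (Or.inr hv)
  change Old T σ' d t ∪ Old T σ' (T.rev d) s = _
  rw [old_congr T h1, old_congr T h2]

section two

variable [Finite D]

omit [Finite D] in
theorem self_TE2_st (hb : T.Bi σ d) : (TE2 T σ d hb t s).st σ = T.st σ := by
  change T.st (σ ∘ col (HS3 T σ d t s) (rt2 T d)) = _
  rw [comp_col_eq2 hb (fun _ _ => rfl) (fun _ _ => rfl)]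

/-- Members of the class of `d` which are met at unexplored times are in one class of the explored
domain. -/
theorem rel_TE2 (hm : T.Mi σ d) {n n' : ℕ} (hn : t < n) (hnn : n ≤ n')
    (hn' : n' + s < minimalPeriod (T.st σ) d) (hr : T.Rel σ d ((T.st σ)^[n] d))
    (hr' : T.Rel σ d ((T.st σ)^[n'] d)) :
    (TE2 T σ d hm.bi t s).Rel σ ((T.st σ)^[n] d) ((T.st σ)^[n'] d) := by
  set L := minimalPeriod (T.st σ) d with hL
  have hb := hm.bi
  have hc := comp_col_eq2 (t := t) (s := s) hb (σ' := σ) (fun _ _ => rfl) (fun _ _ => rfl)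
  have d1 : T.Disj σ d n := T.rel_pos (by omega) hr
  have d2 : T.Disj σ d n' := T.rel_pos (by omega) hr'
  have hit : ∀ k, (T.st σ)^[k] ((T.st σ)^[n] d) = (T.st σ)^[n + k] d := by
    intro k; rw [← iterate_add_apply, add_comm]
  have hper : minimalPeriod (T.st σ) ((T.st σ)^[n] d) = L := T.period_iter σ d n
  have e1 : (T.st σ)^[n'] d = (T.st σ)^[n' - n] ((T.st σ)^[n] d) := by
    rw [hit]; congr 1; omega
  have key := @rel_tmap_of_rel V D T V (col (HS3 T σ d t s) (rt2 T d)) (coll_HS3 hb t s).fib σ _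
    ((T.st σ)^[n] d) (n' - n)
  rw [hc] at key
  rw [e1]
  refine key ?_ (by rw [hper]; omega) ?_
  · rw [← e1]; exact T.rel_trans (T.rel_symm hr) hr'
  · intro i j h1 h2 h3 h4 h5
    rw [hper] at h4
    rw [hit, hit] at h5 ⊢
    by_contra hne
    rcases (coll_HS3 hb t s).eq_or h5 with h6 | ⟨b, h6, -⟩
    · exact hne h6
    have hcol : σ (T.src ((T.st σ)^[n + i] d)) = σ (T.src d) := T.col_src_iter σ d _
    cases b with
    | true =>
      rcases h6 with ⟨k, hk, h7⟩ | ⟨k, hk, h7⟩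
      · rcases Nat.eq_zero_or_pos k with rfl | hk0
        · refine d2 (n + i) L (by omega) (by omega) (by omega) le_rfl ?_
          rw [← h7]
          have : (T.st σ)^[L] d = d := iterate_minimalPeriod
          rw [this]; rfl
        · exact d1 k (n + i) hk0 (by omega) (by omega) (by omega) h7
      · have hkL : k ≤ L := by omega
        have h8 : T.src ((T.st σ)^[L - k] d) = T.src ((T.st σ)^[n + i] d) := by
          rw [← h7]
          have := back_iter T σ d (k := k) hkL
          change (T.st σ)^[L - k] d = _ at this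
          rw [this, T.src_rev]
        exact d2 (n + i) (L - k) (by omega) (by omega) (by omega) (by omega) h8.symm
    | false =>
      have h9 : σ (T.src ((T.st σ)^[n + i] d)) = σ (T.tgt d) := by
        rcases h6 with h6 | h6
        · exact col_HW h6
        · rw [col_HB h6, T.src_rev]
      exact hb (by rw [← hcol, h9])

end two

/-- **The class value off the explored part is a class value of the explored domain.** -/
theorem cls_le_TE2 [Fintype D] (hm : T.Mi σ d) {Θ : D → ℂ}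
    (hΘ : ∀ n, n < minimalPeriod (T.st σ) d → (n ≤ t ∨ minimalPeriod (T.st σ) d ≤ n + s) →
      Θ ((T.st σ)^[n] d) = 0) :
    ‖T.cls σ d Θ‖ ^ 2 ≤ tot (TE2 T σ d hm.bi t s) σ Θ := by
  classical
  set L := minimalPeriod (T.st σ) d with hL
  by_cases hex : ∃ n, t < n ∧ n + s < L ∧ T.Rel σ d ((T.st σ)^[n] d)
  · obtain ⟨n, hn, hr⟩ : ∃ n, (t < n ∧ n + s < L ∧ T.Rel σ d ((T.st σ)^[n] d)) ∧
        ∀ m < n, ¬ (t < m ∧ m + s < L ∧ T.Rel σ d ((T.st σ)^[m] d)) :=
      ⟨Nat.find hex, Nat.find_spec hex, fun m hm => Nat.find_min hex hm⟩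
    obtain ⟨h1, h2, h3⟩ := hn
    have e : T.cls σ d Θ = (TE2 T σ d hm.bi t s).cls σ ((T.st σ)^[n] d) Θ := by
      unfold Tri.cls
      apply Finset.sum_congr rfl
      intro e _
      by_cases h0 : Θ e = 0
      · simp [h0]
      have hc := comp_col_eq2 (t := t) (s := s) hm.bi (σ' := σ) (fun _ _ => rfl) (fun _ _ => rfl)
      have iff : T.Rel σ e d ↔ (TE2 T σ d hm.bi t s).Rel σ e ((T.st σ)^[n] d) := by
        constructor
        · intro h4
          have h5 := T.rel_symm h4
          obtain ⟨-, -, m, m1, m2, m3⟩ := h5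
          have m4 : t < m ∧ m + s < L := by
            by_contra hcon
            apply h0
            rw [← m2]
            exact hΘ m m1 (by omega)
          have m5 : n ≤ m := by
            by_contra hcon
            exact hr m (by omega) ⟨m4.1, m4.2, by rw [m2]; exact T.rel_symm h4⟩
          have := rel_TE2 (t := t) (s := s) hm h1 m5 m4.2 h3 (by rw [m2]; exact T.rel_symm h4)
          rw [m2] at this
          exact (TE2 T σ d hm.bi t s).rel_symm this
        · intro h4
          have := tmap_rel h4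
          rw [hc] at this
          exact T.rel_trans this (T.rel_symm h3)
      simp only [iff]
    rw [e]
    exact cls_sq_le _ _ _ _
  · have e : T.cls σ d Θ = 0 := by
      unfold Tri.cls
      apply Finset.sum_eq_zero
      intro e _
      split_ifs with h4
      · obtain ⟨-, -, m, m1, m2, m3⟩ := T.rel_symm h4
        rw [← m2]
        apply hΘ m m1
        by_contra hcon
        exact hex ⟨m, by omega, by omega, by rw [m2]; exact T.rel_symm h4⟩
      · rfl
    rw [e]
    simpa using tot_nonneg _ _ _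

open Classical in
/-- **Energy of the class of `d` off a two sided exploration.**  `t σ`, `s σ` are the numbers of steps of
the exploration (forward, backward) and `E` is an event; all three are determined by the explored colours.
If the weight `Θ` vanishes on the explored darts and on the faces which degenerate, then the mean of
`‖V(Θ)‖ ^ 2` on `E` is at most `P(E)` times `∑ ‖Θ‖ ^ 2` (sum over darts). -/
theorem sum_cls_two [Fintype V] [Fintype D] (hP : T.Planar) {τ : ℂ} (hτ : τ ^ 2 + τ + 1 = 0) {Θ : D → ℂ}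
    (hΘ : ∀ d, Θ (T.nxt d) = τ ^ 2 * Θ d) (d : D) (t s : (V → Bool) → ℕ) (E : (V → Bool) → Prop)
    (hdet : ∀ σ σ' : V → Bool,
      (∀ v ∈ Old T σ d (t σ) ∪ Old T σ (T.rev d) (s σ), σ' v = σ v) →
      t σ' = t σ ∧ s σ' = s σ ∧ (E σ' ↔ E σ))
    (hE : ∀ σ, E σ → T.Mi σ d)
    (hexp : ∀ σ, E σ → ∀ n, n < minimalPeriod (T.st σ) d →
      (n ≤ t σ ∨ minimalPeriod (T.st σ) d ≤ n + s σ) → Θ ((T.st σ)^[n] d) = 0)
    (hgood : ∀ σ (hσ : E σ), ∀ e, ¬ (TE2 T σ d (hE σ hσ).bi (t σ) (s σ)).Good e → Θ e = 0) :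
    ∑ σ : V → Bool, (if E σ then ‖T.cls σ d Θ‖ ^ 2 else 0) ≤
      ∑ σ : V → Bool, (if E σ then ∑ e, ‖Θ e‖ ^ 2 else 0) := by
  set A : (V → Bool) → Set V := fun σ => Old T σ d (t σ) ∪ Old T σ (T.rev d) (s σ) with hA
  have hstop : IsStop A := by
    intro σ σ' h
    obtain ⟨h1, h2, -⟩ := hdet σ σ' h
    change Old T σ' d (t σ') ∪ Old T σ' (T.rev d) (s σ') = _
    rw [h1, h2, old_congr T (fun v hv => h v (Or.inl hv)), old_congr T (fun v hv => h v (Or.inr hv))]
  apply sum_stop_le hstop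
  intro σ₀
  by_cases hE0 : E σ₀
  · rw [if_pos hE0]
    refine le_trans ?_ (cond_TE2 (s := s σ₀) (t := t σ₀) hP hτ hΘ (hE σ₀ hE0).bi (hgood σ₀ hE0))
    apply Finset.sum_le_sum
    intro τ' _
    have hag : ∀ v ∈ A σ₀, mix (A σ₀) σ₀ τ' v = σ₀ v := fun v hv => mix_mem hv
    obtain ⟨h1, h2, h3⟩ := hdet σ₀ _ hag
    have hE1 : E (mix (A σ₀) σ₀ τ') := h3.2 hE0
    change (if E (mix (A σ₀) σ₀ τ') then _ else _) ≤ tot _ (mix (A σ₀) σ₀ τ') Θ
    rw [if_pos hE1]
    have hm1 := hE _ hE1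
    have e1 := TE2_congr (hb := (hE σ₀ hE0).bi) (hb' := hm1.bi) (t := t σ₀) (s := s σ₀)
      (fun v hv => hag v (Or.inl hv)) (fun v hv => hag v (Or.inr hv))
    rw [← e1]
    apply cls_le_TE2 hm1
    intro n hn1 hn2
    apply hexp _ hE1 n hn1
    rw [h1, h2]
    exact hn2
  · rw [if_neg hE0, mul_zero]
    apply le_of_eq
    apply Finset.sum_eq_zero
    intro τ' _
    have hag : ∀ v ∈ A σ₀, mix (A σ₀) σ₀ τ' v = σ₀ v := fun v hv => mix_mem hv
    obtain ⟨-, -, h3⟩ := hdet σ₀ _ hag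
    rw [if_neg (fun h => hE0 (h3.1 h))]

end Vale.Agent.P148.R2.H532
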