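import Vale.Agent.P148.R2.H871.N0b

/-!
# P148, row DM1: the quotient functor of a triangulation by connected fibres

`T.map π h` has the same darts as `T`, its vertices are those of `V1`, the source is `π ∘ src`.  It is a
triangulation if the fibres of `π` are connected, and it is planar if `T` is.
-/

namespace Vale.Agent.P148.R2.H532

open Function Vale.Agent.P148.R2.H258 Vale.Agent.P148.R2.H258.Tri

variable {V V1 V2 D : Type*}

/-- Two vertices of a fibre of `π` are joined by a walk inside the fibre. -/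
def FibConn (T : Tri V D) (π : V → V1) : Prop :=
  ∀ d e : D, π (T.src d) = π (T.src e) → ∃ l, T.Walk (T.src d) (T.src e) l ∧
    ∀ g ∈ l, π (T.src g) = π (T.src d) ∧ π (T.tgt g) = π (T.src d)

theorem eqvGen_of_walk {T : Tri V D} {π : V → V1} {c : V1} {u w : V} {l : List D}
    (h : T.Walk u w l) (hl : ∀ g ∈ l, π (T.src g) = c ∧ π (T.tgt g) = c) :
    ∀ d e : D, T.src d = u → T.src e = w → Relation.EqvGen
      (fun f g => g = T.rev (T.nxt (T.nxt f)) ∨
        (π (T.src f) = π (T.src (T.rev f)) ∧ g = T.rev f)) d e := by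
  have mono : ∀ f g, Relation.EqvGen (fun f g => g = T.rev (T.nxt (T.nxt f)) ∨
      (T.src f = T.src (T.rev f) ∧ g = T.rev f)) f g → Relation.EqvGen
      (fun f g => g = T.rev (T.nxt (T.nxt f)) ∨
        (π (T.src f) = π (T.src (T.rev f)) ∧ g = T.rev f)) f g := by
    intro f g hfg
    refine Relation.EqvGen.mono ?_ _ _ hfg
    rintro a b (h | ⟨h, h'⟩)
    · exact Or.inl h
    · exact Or.inr ⟨by rw [h], h'⟩
  induction h with
  | nil v =>
    intro d e hd he
    exact mono _ _ (T.link d e (hd.trans he.symm))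
  | cons g w l hw ih =>
    intro d e hd he
    have hg := hl g (by simp)
    have h1 := mono _ _ (T.link d g hd)
    have h2 : Relation.EqvGen (fun f g => g = T.rev (T.nxt (T.nxt f)) ∨
        (π (T.src f) = π (T.src (T.rev f)) ∧ g = T.rev f)) g (T.rev g) :=
      Relation.EqvGen.rel _ _ (Or.inr ⟨by rw [T.src_rev, hg.1, hg.2], rfl⟩)
    have h3 := ih (fun g' hg' => hl g' (List.mem_cons_of_mem _ hg')) (T.rev g) e (T.src_rev g) he
    exact Relation.EqvGen.trans _ _ _ (Relation.EqvGen.trans _ _ _ h1 h2) h3

/-- The quotient of a triangulation by a map with connected fibres. -/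
def tmap (T : Tri V D) (π : V → V1) (h : FibConn T π) : Tri V1 D where
  src := fun d => π (T.src d)
  rev := T.rev
  nxt := T.nxt
  rev_rev := T.rev_rev
  nxt3 := T.nxt3
  src_nxt := fun d => congrArg π (T.src_nxt d)
  link := fun d e hde => by
    obtain ⟨l, h1, h2⟩ := h d e hde
    exact eqvGen_of_walk h1 h2 d e rfl rfl

variable {T : Tri V D} {π : V → V1} {h : FibConn T π}

theorem tmap_src (d : D) : (tmap T π h).src d = π (T.src d) := rfl
theorem tmap_rev (d : D) : (tmap T π h).rev d = T.rev d := rfl
theorem tmap_nxt (d : D) : (tmap T π h).nxt d = T.nxt d := rfl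
theorem tmap_tgt (d : D) : (tmap T π h).tgt d = π (T.tgt d) := rfl
theorem tmap_apex (d : D) : (tmap T π h).apex d = π (T.apex d) := rfl

theorem tmap_contr : H871.Contr T (tmap T π h) π := ⟨fun _ => rfl, fun _ => rfl, fun _ => rfl⟩

theorem tmap_mi {σ : V1 → Bool} {d : D} : (tmap T π h).Mi σ d ↔ T.Mi (σ ∘ π) d := Iff.rfl

theorem tmap_bi {σ : V1 → Bool} {d : D} : (tmap T π h).Bi σ d ↔ T.Bi (σ ∘ π) d := Iff.rfl

theorem tmap_st {σ : V1 → Bool} : (tmap T π h).st σ = T.st (σ ∘ π) := rfl

theorem tmap_mu (l : List D) (d : D) : (tmap T π h).mu l d = T.mu l d := rfl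

theorem tmap_disj {σ : V1 → Bool} {d : D} {n : ℕ} (hd : (tmap T π h).Disj σ d n) :
    T.Disj (σ ∘ π) d n := by
  intro i j h1 h2 h3 h4 h5
  apply hd i j h1 h2 h3 h4
  change π (T.src ((T.st (σ ∘ π))^[i] d)) = π (T.src ((T.st (σ ∘ π))^[j] d))
  rw [h5]

theorem tmap_rel {σ : V1 → Bool} {d e : D} (hr : (tmap T π h).Rel σ d e) : T.Rel (σ ∘ π) d e := by
  obtain ⟨h1, h2, n, h3, h4, h5⟩ := hr
  exact ⟨h1, h2, n, h3, h4, tmap_disj h5⟩

/-- Lifting of walks of the quotient: only darts inside fibres are added. -/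
theorem lift_walk {u w : V1} {l : List D} (hw : (tmap T π h).Walk u w l) :
    ∀ a b : D, π (T.src a) = u → π (T.src b) = w → ∃ l', T.Walk (T.src a) (T.src b) l' ∧
      (∀ d, π (T.src d) ≠ π (T.tgt d) → T.mu l' d = T.mu l d) ∧
      (∀ g ∈ l', π (T.src g) = u ∨ ∃ e ∈ l, π (T.src g) = π (T.tgt e)) := by
  induction hw with
  | nil v =>
    intro a b ha hb
    obtain ⟨l, h1, h2⟩ := h a b (ha.trans hb.symm)
    refine ⟨l, h1, ?_, fun g hg => Or.inl ((h2 g hg).1.trans ha)⟩
    intro d hd
    rw [T.mu_nil]
    apply T.mu_zero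
    · intro hmem
      exact hd ((h2 d hmem).1.trans (h2 d hmem).2.symm)
    · intro hmem
      have := h2 _ hmem
      rw [T.src_rev, T.tgt_rev] at this
      exact hd (this.2.trans this.1.symm)
  | cons g w l hw ih =>
    intro a b ha hb
    obtain ⟨l', a1, a2, a3⟩ := ih (T.rev g) b rfl hb
    obtain ⟨m, b1, b2⟩ := h a g ha
    refine ⟨m ++ g :: l', b1.append (Walk.cons g _ _ ?_), ?_, ?_⟩
    · have : T.src (T.rev g) = T.tgt g := rfl
      rw [← this]; exact a1
    · intro d hd
      rw [T.mu_append, T.mu_cons, a2 d hd, T.mu_cons g l d]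
      have : T.mu m d = 0 := by
        apply T.mu_zero
        · intro hmem
          exact hd ((b2 d hmem).1.trans (b2 d hmem).2.symm)
        · intro hmem
          have := b2 _ hmem
          rw [T.src_rev, T.tgt_rev] at this
          exact hd (this.2.trans this.1.symm)
      rw [this, zero_add]
    · intro f hf
      rcases List.mem_append.1 hf with hf | hf
      · left; exact (b2 f hf).1.trans ha
      · rcases List.mem_cons.1 hf with rfl | hf
        · left; rfl
        · rcases a3 f hf with h1 | ⟨e, he, h1⟩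
          · right; exact ⟨g, by simp, h1⟩
          · right; exact ⟨e, List.mem_cons_of_mem _ he, h1⟩

/-- **Contractions of planar triangulations are planar.** -/
theorem planar_tmap (hP : T.Planar) : (tmap T π h).Planar := by
  intro v l hl
  rcases hl.casesOn' with ⟨h1, -⟩ | ⟨d₀, l₀, h1, h2, h3⟩
  · subst h1
    exact ⟨fun _ => 0, fun _ => rfl, fun d _ => by rw [Tri.mu_nil]; simp⟩
  · obtain ⟨l', a1, a2, a3⟩ := lift_walk hl d₀ d₀ h2 h2
    obtain ⟨N, n1, n2⟩ := hP _ l' a1
    refine ⟨N, n1, ?_⟩
    intro d hd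
    rw [tmap_mu]
    by_cases hne : π (T.src d) ≠ π (T.tgt d)
    · rw [← a2 d hne]
      exact n2 d (Or.inl fun hh => hne (by rw [hh]))
    · have hun : ∀ e ∈ l, π (T.src e) ≠ π (T.src d) := by
        rcases hd with hd | hd
        · exact absurd hd hne
        · exact hd
      push Not at hne
      have hv : ∀ g ∈ l', π (T.src g) ≠ π (T.src d) := by
        intro g hg hh
        rcases a3 g hg with h4 | ⟨e, he, h4⟩
        · apply hun d₀ (by rw [h1]; simp)
          change (tmap T π h).src d₀ = _
          rw [h2, ← h4, hh]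
        · obtain ⟨e', he', h5⟩ := hl.tgt_mem_closed e he
          apply hun e' he'
          change (tmap T π h).src e' = _
          rw [h5]
          change π (T.tgt e) = _
          rw [← h4, hh]
      have z1 : T.mu l' d = 0 := by
        apply T.mu_zero
        · intro hmem; exact hv d hmem rfl
        · intro hmem
          obtain ⟨e, he, h5⟩ := a1.tgt_mem_closed _ hmem
          rw [T.tgt_rev] at h5
          exact hv e he (by rw [h5])
      have z2 : T.mu l d = 0 := by
        apply T.mu_zero
        · intro hmem; exact hun d hmem rfl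
        · intro hmem
          obtain ⟨e, he, h5⟩ := hl.tgt_mem_closed _ hmem
          apply hun e he
          change (tmap T π h).src e = _
          rw [h5]
          change π (T.tgt (T.rev d)) = _
          rw [T.tgt_rev]
      rw [z2, ← z1]
      exact n2 d (Or.inr fun e he hh => hv e he (by rw [hh]))

end Vale.Agent.P148.R2.H532
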