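import Vale.Agent.P148.R2.H532.Map
import Vale.Agent.P148.R2.H203.T1
import Vale.Agent.P148.R2.H838.X2

/-!
# P148, row DM2/DM5: stopping sets, frozen colours, conditional energy bound
-/

namespace Vale.Agent.P148.R2.H532

open Function Vale.Agent.P148.R2.H258 Vale.Agent.P148.R2.H258.Tri Vale.Agent.P148.R2.H838
  Vale.Agent.P148.R2.H203

section stop

variable {V : Type*} [Fintype V]

/-- `A` is a stopping set: it is determined by the colours on it. -/
def IsStop (A : (V → Bool) → Set V) : Prop :=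
  ∀ σ σ' : V → Bool, (∀ v ∈ A σ, σ' v = σ v) → A σ' = A σ

omit [Fintype V] in
theorem IsStop.mix {A : (V → Bool) → Set V} (hA : IsStop A) (σ τ : V → Bool) :
    A (mix (A σ) σ τ) = A σ := hA _ _ (fun _ hv => mix_mem hv)

open Classical in
/-- Exchange of the colours off the stopping set. -/
theorem sum_swap {M : Type*} [AddCommMonoid M] {A : (V → Bool) → Set V} (hA : IsStop A)
    (g : (V → Bool) → (V → Bool) → M) :
    ∑ σ : V → Bool, ∑ τ : V → Bool, g (mix (A σ) σ τ) (mix (A σ) τ σ) =
      ∑ σ : V → Bool, ∑ τ : V → Bool, g σ τ := by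
  set Ψ : (V → Bool) × (V → Bool) → (V → Bool) × (V → Bool) :=
    fun p => (mix (A p.1) p.1 p.2, mix (A p.1) p.2 p.1) with hΨ
  have hinv : Function.Involutive Ψ := by
    intro p
    have h1 : A (mix (A p.1) p.1 p.2) = A p.1 := hA.mix _ _
    simp only [hΨ, h1]
    apply Prod.ext
    · funext v
      by_cases hv : v ∈ A p.1
      · simp [mix, hv]
      · simp [mix, hv]
    · funext v
      by_cases hv : v ∈ A p.1
      · simp [mix, hv]
      · simp [mix, hv]
  have h1 := Equiv.sum_comp (hinv.toPerm) (fun p : (V → Bool) × (V → Bool) => g p.1 p.2)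
  rw [Fintype.sum_prod_type, Fintype.sum_prod_type] at h1
  exact h1

open Classical in
/-- **Domain Markov property.** Given the colours on the stopping set the others are fair. -/
theorem sum_stop {M : Type*} [AddCommMonoid M] {A : (V → Bool) → Set V} (hA : IsStop A)
    (f : (V → Bool) → M) :
    ∑ σ : V → Bool, ∑ τ : V → Bool, f (mix (A σ) σ τ) =
      Fintype.card (V → Bool) • ∑ σ : V → Bool, f σ := by
  rw [sum_swap hA (fun σ _ => f σ)]
  simp only [Finset.sum_const, Finset.card_univ]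
  rw [Finset.smul_sum]

open Classical in
theorem card_col : (Fintype.card (V → Bool) : ℝ) = 2 ^ Fintype.card V := by
  rw [Fintype.card_fun, Fintype.card_bool]; push_cast; rfl

open Classical in
/-- If every conditional mean is at most `B σ₀` then the mean is at most the mean of `B`. -/
theorem sum_stop_le {A : (V → Bool) → Set V} (hA : IsStop A) {f B : (V → Bool) → ℝ}
    (h : ∀ σ₀, ∑ τ : V → Bool, f (mix (A σ₀) σ₀ τ) ≤ 2 ^ Fintype.card V * B σ₀) :
    ∑ σ : V → Bool, f σ ≤ ∑ σ : V → Bool, B σ := by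
  have h1 := sum_stop hA f
  have h2 : ∑ σ : V → Bool, ∑ τ : V → Bool, f (mix (A σ) σ τ) ≤
      ∑ σ : V → Bool, 2 ^ Fintype.card V * B σ := Finset.sum_le_sum (fun σ _ => h σ)
  rw [h1, nsmul_eq_mul, card_col, ← Finset.mul_sum] at h2
  exact le_of_mul_le_mul_left h2 (by positivity)

/-- Flip the colours on `S`. -/
def flipOn [DecidableEq V] (S : Finset V) (τ : V → Bool) : V → Bool :=
  fun v => if v ∈ S then !τ v else τ v

omit [Fintype V] in
theorem flipOn_invol [DecidableEq V] (S : Finset V) :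
    Function.Involutive (flipOn S : (V → Bool) → (V → Bool)) := by
  intro τ
  funext v
  by_cases h : v ∈ S <;> simp [flipOn, h]

open Classical in
/-- Freezing `k` colours costs at most a factor `2 ^ k`. -/
theorem sum_mix_le (F : Finset V) (σ₀ : V → Bool) {f : (V → Bool) → ℝ} (hf : ∀ σ, 0 ≤ f σ) :
    ∑ τ : V → Bool, f (mix (F : Set V) σ₀ τ) ≤ 2 ^ F.card * ∑ τ : V → Bool, f τ := by
  have h1 : ∀ τ : V → Bool, f (mix (F : Set V) σ₀ τ) ≤ ∑ S ∈ F.powerset, f (flipOn S τ) := by
    intro τ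
    have e : mix (F : Set V) σ₀ τ = flipOn (F.filter fun v => σ₀ v ≠ τ v) τ := by
      funext v
      by_cases hv : v ∈ F
      · rw [mix_mem (by exact hv)]
        unfold flipOn
        by_cases hc : σ₀ v = τ v
        · simp [hc]
        · have : (σ₀ v) = !(τ v) := by
            revert hc; cases σ₀ v <;> cases τ v <;> simp
          simp [hv, this]
      · rw [mix_not_mem (by exact hv)]
        simp [flipOn, hv]
    rw [e]
    exact Finset.single_le_sum (f := fun S => f (flipOn S τ)) (fun S _ => hf _)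
      (Finset.mem_powerset.2 (Finset.filter_subset _ _))
  calc ∑ τ : V → Bool, f (mix (F : Set V) σ₀ τ)
      ≤ ∑ τ : V → Bool, ∑ S ∈ F.powerset, f (flipOn S τ) := Finset.sum_le_sum (fun τ _ => h1 τ)
    _ = ∑ S ∈ F.powerset, ∑ τ : V → Bool, f (flipOn S τ) := Finset.sum_comm
    _ = ∑ S ∈ F.powerset, ∑ τ : V → Bool, f τ := by
        apply Finset.sum_congr rfl
        intro S _
        exact Equiv.sum_comp ((flipOn_invol S).toPerm) f
    _ = 2 ^ F.card * ∑ τ : V → Bool, f τ := by
        rw [Finset.sum_const, Finset.card_powerset, nsmul_eq_mul]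
        push_cast
        ring

omit [Fintype V] in
/-- Only the colours on `R` matter. -/
theorem mix_inter {M : Type*} {f : (V → Bool) → M} {R : Set V}
    (hR : ∀ σ σ' : V → Bool, (∀ v ∈ R, σ' v = σ v) → f σ' = f σ) (A : Set V) (σ₀ τ : V → Bool) :
    f (mix A σ₀ τ) = f (mix (A ∩ R) σ₀ τ) := by
  apply hR
  intro v hv
  by_cases h : v ∈ A
  · rw [mix_mem h, mix_mem (A := A ∩ R) ⟨h, hv⟩]
  · rw [mix_not_mem h, mix_not_mem (A := A ∩ R) (fun hh => h hh.1)]

end stop

section energy

variable {V V1 D : Type*} [Fintype V] [Fintype D] (T : Tri V D)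

open Classical in
/-- **Energy bound with frozen colours.** -/
theorem frozen_tot (hP : T.Planar) {τ : ℂ} (hτ : τ ^ 2 + τ + 1 = 0) {Θ : D → ℂ}
    (h : ∀ d, Θ (T.nxt d) = τ ^ 2 * Θ d) (hg : ∀ d, ¬ T.Good d → Θ d = 0)
    (F : Finset V) (σ₀ : V → Bool) :
    ∑ σ : V → Bool, tot T (mix (F : Set V) σ₀ σ) Θ ≤
      2 ^ F.card * (2 ^ Fintype.card V / 4 * ∑ d, ‖Θ d‖ ^ 2) := by
  rw [← sum_tot T hP hτ h hg]
  exact sum_mix_le F σ₀ (f := fun σ => tot T σ Θ) (fun σ => tot_nonneg T σ Θ)

omit [Fintype V] [Fintype D] in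
/-- The class relation only depends on the colours of the vertices of darts. -/
theorem rel_congr {T : Tri V D} {σ σ' : V → Bool} (h : ∀ d, σ' (T.src d) = σ (T.src d)) (d e : D) :
    T.Rel σ' d e ↔ T.Rel σ d e := by
  have hst : T.st σ' = T.st σ := by
    funext f
    exact T.st_congr (h f) (h (T.rev f)) (h (T.nxt (T.nxt f)))
  have hmi : ∀ f, T.Mi σ' f ↔ T.Mi σ f := by
    intro f
    have h1 := h f
    have h2 := h (T.rev f)
    have h3 := h (T.nxt (T.nxt f))
    rw [T.src_rev] at h2
    rw [T.src_nxt2] at h3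
    unfold Tri.Mi
    rw [h1, h2, h3]
  unfold Tri.Rel Tri.Disj
  rw [hst, hmi, hmi]

omit [Fintype V] in
theorem tot_congr {T : Tri V D} {σ σ' : V → Bool} (h : ∀ d, σ' (T.src d) = σ (T.src d)) (Θ : D → ℂ) :
    tot T σ' Θ = tot T σ Θ := by
  classical
  unfold tot
  simp only [rel_congr h]

end energy

end Vale.Agent.P148.R2.H532
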